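import Crest.Agent.N346.Id.Pal

/-!
Row 346 (helper90): conformal change `g₂ = e^{2ψ} g`, `K₂ = e^{ψ} K` on an open set.
`Conf.riem, grad_eq, gam_eq, volDensity_eq, Cd_eq, divg_eq, hess_eq, lap_eq, ric_eq, scalar_eq,
traceK_eq, normSqK_eq, Jw_eq, energy_eq`, and `scalar_rpow` for `g₂ = u^{4/(n-2)} g`.
-/

set_option autoImplicit false

open scoped ContDiff Topology
open Filter Set
open Crest.GeometryTopology.CoordMetric Crest.MathPhysics.ExteriorData
open Crest.Agent.R202.Tens Crest.Agent.R247.Bo84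

noncomputable section

namespace Crest.Agent.N346.Id

variable {n : ℕ} {g g₂ : MetricField n} {U : Set (E n)} {x : E n}

/-- the Koszul formula for the difference of two Levi-Civita connections. -/
lemma bil_Cd (hg : IsRiemannianOn g U) (hg₂ : IsRiemannianOn g₂ U) (hx : x ∈ U)
    {N : E n → E n → E n → ℝ}
    (hN : ∀ A B Z, fderiv ℝ (fun y => bil (g₂ y) B Z) x A =
      N A B Z + bil (g₂ x) (Gam g x A B) Z + bil (g₂ x) B (Gam g x A Z)) (A B Z : E n) :
    bil (g₂ x) (Cd g g₂ x A B) Z = (1 / 2) * (N A B Z + N B A Z - N Z A B) := by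
  have h0 : ∀ A B Z : E n, fderiv ℝ (Gf g₂) x A B Z = fderiv ℝ (fun y => bil (g₂ y) B Z) x A := by
    intro A B Z
    have := fderiv_apply2 (G := Gf g₂) (Φ := fun z => z) (u := fun _ => B) (v := fun _ => Z)
        (y := x) (differentiableAt_Gf hg₂ hx) differentiableAt_id (differentiableAt_const _)
        (differentiableAt_const _) A
    simp only [fderiv_fun_id, ContinuousLinearMap.coe_id', id_eq, fderiv_fun_const, Pi.zero_apply,
      zero_apply, map_zero, add_zero] at this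
    exact this.symm
  have h1 := isLC hg₂ hx A B Z
  rw [h0, h0, h0, hN, hN, hN] at h1
  have e : Gf g₂ x (Gam g₂ x A B) Z = bil (g₂ x) (Gam g₂ x A B) Z := rfl
  rw [Cd_apply, map_sub, sub_apply, ← e, h1, Gam_symm hg hx B A, Gam_symm hg hx Z A,
    Gam_symm hg hx Z B, bil_symm hg₂ hx (Gam g x A Z) B]
  ring

lemma fderiv_bil_const (hg : IsRiemannianOn g U) (hx : x ∈ U) (A B Z : E n) :
    fderiv ℝ (fun y => bil (g y) B Z) x A =
      bil (g x) (Gam g x A B) Z + bil (g x) B (Gam g x A Z) := by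
  rw [fderiv_bil hg hx (differentiableAt_const B) (differentiableAt_const Z), cov_const, cov_const]

lemma differentiableAt_bil (hg : IsRiemannianOn g U) (hx : x ∈ U) {Y Z : E n → E n}
    (hY : DifferentiableAt ℝ Y x) (hZ : DifferentiableAt ℝ Z x) :
    DifferentiableAt ℝ (fun y => bil (g y) (Y y) (Z y)) x :=
  ((differentiableAt_Gf hg hx).clm_apply hY).clm_apply hZ

/-- `g₂ = e^{2ψ} g` on `U`. -/
structure Conf (g g₂ : MetricField n) (ψ : E n → ℝ) (U : Set (E n)) : Prop where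
  riem₁ : IsRiemannianOn g U
  smooth : ContDiffOn ℝ ∞ ψ U
  eq : ∀ y ∈ U, g₂ y = Real.exp (2 * ψ y) • g y

namespace Conf

variable {ψ : E n → ℝ}

lemma contDiffAt (h : Conf g g₂ ψ U) (hx : x ∈ U) : ContDiffAt ℝ ∞ ψ x :=
  h.smooth.contDiffAt (h.riem₁.isOpen.mem_nhds hx)

lemma riem (h : Conf g g₂ ψ U) : IsRiemannianOn g₂ U := by
  refine ⟨h.riem₁.isOpen, fun i j => ?_, fun y hy => ?_⟩
  · refine ContDiffOn.congr (f := fun y => Real.exp (2 * ψ y) * g y i j)
      (((contDiffOn_const.mul h.smooth).exp).mul (h.riem₁.contDiffOn i j)) fun y hy => ?_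
    rw [h.eq y hy, Matrix.smul_apply, smul_eq_mul]
  · rw [h.eq y hy]
    exact (h.riem₁.posDef y hy).smul (Real.exp_pos _)

lemma bil_eq (h : Conf g g₂ ψ U) (hx : x ∈ U) (A B : E n) :
    bil (g₂ x) A B = Real.exp (2 * ψ x) * bil (g x) A B := by
  rw [h.eq x hx, bil_smul]

lemma grad_eq (h : Conf g g₂ ψ U) (hx : x ∈ U) (u : E n → ℝ) :
    grad g₂ u x = Real.exp (-(2 * ψ x)) • grad g u x := by
  refine bil_injective h.riem hx fun Z => ?_
  rw [bil_grad h.riem hx, h.bil_eq hx, map_smul, smul_apply, bil_grad h.riem₁ hx, smul_eq_mul,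
    ← mul_assoc, ← Real.exp_add]
  simp

lemma gam_eq (h : Conf g g₂ ψ U) (hx : x ∈ U) (u v : E n → ℝ) :
    gam g₂ u v x = Real.exp (-(2 * ψ x)) * gam g u v x := by
  rw [gam_eq_fderiv_grad, h.grad_eq hx, map_smul, gam_eq_fderiv_grad, smul_eq_mul]

lemma shp_eq (h : Conf g g₂ ψ U) (hx : x ∈ U) (T : MetricField n) :
    shp g₂ T x = Real.exp (-(2 * ψ x)) • shp g T x := by
  refine shp_eq_of_bil h.riem hx fun Y Z => ?_
  rw [h.bil_eq hx, smul_apply, map_smul, smul_apply, bil_shp h.riem₁ hx, smul_eq_mul,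
    ← mul_assoc, ← Real.exp_add]
  simp

lemma volDensity_eq (h : Conf g g₂ ψ U) (hx : x ∈ U) :
    volDensity g₂ x = Real.exp (n * ψ x) * volDensity g x := by
  rw [volDensity, h.eq x hx, Matrix.det_smul, Fintype.card_fin, ← Real.exp_nat_mul,
    Real.sqrt_mul (Real.exp_pos _).le, ← Real.exp_half, volDensity]
  congr 2
  ring

/-- `C(A, B) = dψ(A) B + dψ(B) A - g(A, B) ∇ψ`. -/
lemma Cd_eq (h : Conf g g₂ ψ U) (hx : x ∈ U) (A B : E n) :
    Cd g g₂ x A B = fderiv ℝ ψ x A • B + fderiv ℝ ψ x B • A - bil (g x) A B • grad g ψ x := by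
  have hψ : DifferentiableAt ℝ ψ x := (h.contDiffAt hx).differentiableAt (by simp)
  refine bil_injective h.riem hx fun Z => ?_
  rw [bil_Cd h.riem₁ h.riem hx
    (N := fun A B Z => 2 * fderiv ℝ ψ x A * Real.exp (2 * ψ x) * bil (g x) B Z)]
  · simp only [h.bil_eq hx, map_sub, map_add, map_smul, sub_apply, add_apply, smul_apply,
      smul_eq_mul, bil_grad h.riem₁ hx]
    ring
  · intro A B Z
    have e1 : (fun y => bil (g₂ y) B Z) =ᶠ[𝓝 x] fun y => Real.exp (2 * ψ y) * bil (g y) B Z := by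
      filter_upwards [h.riem₁.isOpen.mem_nhds hx] with y hy using h.bil_eq hy B Z
    have e2 : HasFDerivAt (fun y => Real.exp (2 * ψ y))
        (Real.exp (2 * ψ x) • ((2:ℝ) • fderiv ℝ ψ x)) x := (hψ.hasFDerivAt.const_mul 2).exp
    rw [e1.fderiv_eq, fderiv_fun_mul e2.differentiableAt (differentiableAt_bil h.riem₁ hx
      (differentiableAt_const B) (differentiableAt_const Z)), e2.fderiv]
    simp only [add_apply, smul_apply, smul_eq_mul, fderiv_bil_const h.riem₁ hx, h.bil_eq hx]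
    ring

lemma Cd_eq' (h : Conf g g₂ ψ U) (hx : x ∈ U) (A : E n) :
    Cd g g₂ x A = fderiv ℝ ψ x A • ContinuousLinearMap.id ℝ (E n) + (fderiv ℝ ψ x).smulRight A
      - (bil (g x) A).smulRight (grad g ψ x) := by
  ext1 B
  rw [h.Cd_eq hx]
  simp

lemma trL_Cd (h : Conf g g₂ ψ U) (hx : x ∈ U) (Z : E n) :
    trL (Cd g g₂ x Z) = fderiv ℝ (fun y => (n : ℝ) * ψ y) x Z := by
  have hψ : DifferentiableAt ℝ ψ x := (h.contDiffAt hx).differentiableAt (by simp)
  rw [h.Cd_eq' hx, map_sub, map_add, map_smul, trL_id, trL_smulRight, trL_smulRight,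
    fderiv_const_mul hψ, bil_symm h.riem₁ hx, bil_grad h.riem₁ hx]
  simp only [smul_eq_mul, smul_apply]
  ring

lemma divg_eq (h : Conf g g₂ ψ U) (hx : x ∈ U) {Y : E n → E n} (hY : DifferentiableAt ℝ Y x) :
    divg g₂ Y x = divg g Y x + n * fderiv ℝ ψ x (Y x) := by
  have hψ : DifferentiableAt ℝ ψ x := (h.contDiffAt hx).differentiableAt (by simp)
  rw [divg_two h.riem₁ h.riem hx (h.trL_Cd hx) hY, fderiv_const_mul hψ]
  rfl

lemma hess_eq (h : Conf g g₂ ψ U) (hx : x ∈ U) (u : E n → ℝ) (A B : E n) :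
    hess g₂ u x A B = hess g u x A B - fderiv ℝ ψ x A * fderiv ℝ u x B
      - fderiv ℝ ψ x B * fderiv ℝ u x A + bil (g x) A B * gam g u ψ x := by
  rw [hess_two g g₂, h.Cd_eq hx, gam_eq_fderiv_grad]
  simp only [map_sub, map_add, map_smul, smul_eq_mul]
  ring

lemma hasFDerivAt_exp (h : Conf g g₂ ψ U) (hx : x ∈ U) (c : ℝ) :
    HasFDerivAt (fun y => Real.exp (-(c * ψ y)))
      (Real.exp (-(c * ψ x)) • (-(c • fderiv ℝ ψ x))) x :=
  ((((h.contDiffAt hx).differentiableAt (by simp)).hasFDerivAt.const_mul c).neg).exp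

lemma lap_eq (h : Conf g g₂ ψ U) (hx : x ∈ U) {u : E n → ℝ} (hu : ContDiffAt ℝ 2 u x) :
    laplaceBeltrami g₂ u x =
      Real.exp (-(2 * ψ x)) * (laplaceBeltrami g u x + (n - 2) * gam g ψ u x) := by
  have e1 : grad g₂ u =ᶠ[𝓝 x] fun y => Real.exp (-(2 * ψ y)) • grad g u y := by
    filter_upwards [h.riem₁.isOpen.mem_nhds hx] with y hy using h.grad_eq hy u
  have e2 := h.hasFDerivAt_exp hx 2
  rw [← divg_grad, h.divg_eq hx (differentiableAt_grad h.riem hx hu), divg_congr e1,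
    divg_smul h.riem₁ hx e2.differentiableAt (differentiableAt_grad h.riem₁ hx hu), e2.fderiv,
    divg_grad, h.grad_eq hx, gam_eq_fderiv_grad]
  simp only [map_smul, smul_apply, neg_apply, smul_eq_mul]
  ring

/-- conformal change of the Ricci tensor. -/
theorem ric_eq (h : Conf g g₂ ψ U) (hx : x ∈ U) (A B : E n) :
    bil (ricM g₂ x) A B = bil (ricM g x) A B
      - (n - 2) * (hess g ψ x A B - fderiv ℝ ψ x A * fderiv ℝ ψ x B)
      - (laplaceBeltrami g ψ x + (n - 2) * gam g ψ ψ x) * bil (g x) A B := by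
  have hg := h.riem₁
  have hψ2 : ContDiffAt ℝ 2 ψ x := (h.contDiffAt hx).of_le (by norm_cast)
  have hψ : DifferentiableAt ℝ ψ x := hψ2.differentiableAt (by norm_num)
  have hdψ : DifferentiableAt ℝ (fderiv ℝ ψ) x :=
    (hψ2.fderiv_right (m := 1) (by norm_num)).differentiableAt (by norm_num)
  have h1 := ricci_two hg h.riem hx (l := fun y => (n : ℝ) * ψ y) (contDiffAt_const.mul hψ2)
    (fun y hy => h.trL_Cd hy) (W := fun _ => A) (Y := fun _ => B) contDiffAt_const
    (differentiableAt_const _)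
  have e1 : (fun y => Cd g g₂ y A B) =ᶠ[𝓝 x] fun y =>
      (fderiv ℝ ψ y A • B + fderiv ℝ ψ y B • A) - bil (g y) A B • grad g ψ y := by
    filter_upwards [hg.isOpen.mem_nhds hx] with y hy using h.Cd_eq hy A B
  have dA : DifferentiableAt ℝ (fun y => fderiv ℝ ψ y A) x :=
    hdψ.clm_apply (differentiableAt_const _)
  have dB : DifferentiableAt ℝ (fun y => fderiv ℝ ψ y B) x :=
    hdψ.clm_apply (differentiableAt_const _)
  have dg : DifferentiableAt ℝ (fun y => bil (g y) A B) x :=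
    differentiableAt_bil hg hx (differentiableAt_const _) (differentiableAt_const _)
  have dgr := differentiableAt_grad hg hx hψ2
  have cA : DifferentiableAt ℝ (fun _ : E n => A) x := differentiableAt_const _
  have cB : DifferentiableAt ℝ (fun _ : E n => B) x := differentiableAt_const _
  rw [divg_congr e1,
    divg_sub hg hx ((dA.fun_smul cB).fun_add (dB.fun_smul cA)) (dg.fun_smul dgr),
    divg_add hg hx (dA.fun_smul cB) (dB.fun_smul cA), divg_smul hg hx dA cB, divg_smul hg hx dB cA,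
    divg_smul hg hx dg dgr, divg_grad, fderiv_fderiv_apply hψ2 cA g, fderiv_fderiv_apply hψ2 cB g,
    fderiv_bil_const hg hx, divg_eq_trL hg hx cA, divg_eq_trL hg hx cB, hess_const_mul _ hψ2,
    fderiv_const_mul hψ, h.Cd_eq' hx A, h.Cd_eq' hx B] at h1
  have hgr : ∀ Z, bil (g x) Z (grad g ψ x) = fderiv ℝ ψ x Z := fun Z => by
    rw [bil_symm hg hx, bil_grad hg hx]
  simp only [ContinuousLinearMap.comp_add, ContinuousLinearMap.add_comp,
    ContinuousLinearMap.comp_sub, ContinuousLinearMap.sub_comp, ContinuousLinearMap.comp_smul,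
    ContinuousLinearMap.smul_comp, ContinuousLinearMap.comp_id, ContinuousLinearMap.id_comp,
    map_add, map_sub, map_smul, trL_comp_smulRight, trL_smulRight_comp, trL_smulRight, trL_id,
    smul_eq_mul, add_apply, sub_apply, smul_apply, ContinuousLinearMap.smulRight_apply,
    ContinuousLinearMap.id_apply, cov_const, hgr] at h1
  rw [h1, gam_eq_fderiv_grad, hess_symm hg hx hψ2 B A, bil_symm hg hx B A,
    bil_symm hg hx B (Gam g x (grad g ψ x) A), Gam_symm hg hx B A]
  ring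

/-- conformal change of the scalar curvature. -/
theorem scalar_eq (h : Conf g g₂ ψ U) (hx : x ∈ U) :
    scalarCurv g₂ x = Real.exp (-(2 * ψ x)) * (scalarCurv g x
      - 2 * (n - 1) * laplaceBeltrami g ψ x - (n - 1) * (n - 2) * gam g ψ ψ x) := by
  have hg := h.riem₁
  have hψ2 : ContDiffAt ℝ 2 ψ x := (h.contDiffAt hx).of_le (by norm_cast)
  rw [scalarCurv_eq_traceK, traceK_eq h.riem hx, h.shp_eq hx, map_smul, ← traceK_eq hg hx,
    traceK_eq_sum_xi hg hx, smul_eq_mul]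
  congr 1
  have e1 : ∀ i, bil (g x) (ee i) (xi g i x) = 1 := fun i => by
    rw [bil_symm hg hx, bil_xi hg hx]; simp
  have e2 : ∑ i, fderiv ℝ ψ x (ee i) * fderiv ℝ ψ x (xi g i x) = gam g ψ ψ x := by
    rw [gam_eq_fderiv_grad, ← sum_xi_clm hg hx]
    simp only [bil_grad hg hx]
  simp only [h.ric_eq hx, e1, Finset.sum_sub_distrib, ← Finset.mul_sum, e2, ← bil_hessM]
  rw [← traceK_eq_sum_xi hg hx, ← traceK_eq_sum_xi hg hx, ← lap_eq_traceK hg hx hψ2,
    ← scalarCurv_eq_traceK]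
  simp only [Finset.sum_const, Finset.card_univ, Fintype.card_fin, nsmul_eq_mul]
  ring

variable {K K₂ : MetricField n}

lemma shpK_eq (h : Conf g g₂ ψ U) (hK : ∀ y ∈ U, K₂ y = Real.exp (ψ y) • K y) (hx : x ∈ U) :
    shp g₂ K₂ x = Real.exp (-ψ x) • shp g K x := by
  have e : shp g K₂ x = Real.exp (ψ x) • shp g K x := by
    rw [shp, shp, hK x hx, Matrix.mul_smul, mat_smul]
  rw [h.shp_eq hx, e, smul_smul, ← Real.exp_add]
  congr 2
  ring

lemma traceK_eq (h : Conf g g₂ ψ U) (hK : ∀ y ∈ U, K₂ y = Real.exp (ψ y) • K y) (hx : x ∈ U) :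
    traceK g₂ K₂ x = Real.exp (-ψ x) * traceK g K x := by
  rw [Id.traceK_eq h.riem hx, Id.traceK_eq h.riem₁ hx, h.shpK_eq hK hx, map_smul, smul_eq_mul]

lemma symT (h : Conf g g₂ ψ U) (hS : SymT K U) (hK : ∀ y ∈ U, K₂ y = Real.exp (ψ y) • K y) :
    SymT K₂ U := by
  refine ⟨fun i j => ?_, fun y hy i j => ?_⟩
  · refine ContDiffOn.congr (f := fun y => Real.exp (ψ y) * K y i j)
      ((h.smooth.exp).mul (hS.smooth i j)) fun y hy => ?_
    rw [hK y hy, Matrix.smul_apply, smul_eq_mul]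
  · rw [hK y hy, Matrix.smul_apply, Matrix.smul_apply, hS.symm y hy]

lemma normSqK_eq (h : Conf g g₂ ψ U) (hS : SymT K U)
    (hK : ∀ y ∈ U, K₂ y = Real.exp (ψ y) • K y) (hx : x ∈ U) :
    normSqK g₂ K₂ x = Real.exp (-(2 * ψ x)) * normSqK g K x := by
  rw [Id.normSqK_eq h.riem hx ((h.symT hS hK).symm x hx), Id.normSqK_eq h.riem₁ hx (hS.symm x hx),
    h.shpK_eq hK hx, ContinuousLinearMap.comp_smul, ContinuousLinearMap.smul_comp, smul_smul,
    map_smul, smul_eq_mul, ← Real.exp_add]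
  congr 2
  ring

theorem energy_eq (h : Conf g g₂ ψ U) (hS : SymT K U)
    (hK : ∀ y ∈ U, K₂ y = Real.exp (ψ y) • K y) (hx : x ∈ U) :
    energyDensity g₂ K₂ x = Real.exp (-(2 * ψ x)) * (energyDensity g K x
      - (n - 1) * laplaceBeltrami g ψ x - (n - 1) * (n - 2) / 2 * gam g ψ ψ x) := by
  have e : Real.exp (-ψ x) ^ 2 = Real.exp (-(2 * ψ x)) := by
    rw [← Real.exp_nat_mul]; congr 1; push_cast; ring
  rw [energyDensity, energyDensity, h.scalar_eq hx, h.traceK_eq hK hx, h.normSqK_eq hS hK hx,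
    mul_pow, e]
  ring

/-- conformal change of the momentum density. -/
theorem Jw_eq (h : Conf g g₂ ψ U) (hS : SymT K U)
    (hK : ∀ y ∈ U, K₂ y = Real.exp (ψ y) • K y) (hx : x ∈ U) (A : E n) :
    Jw g₂ K₂ x A =
      Real.exp (-ψ x) * (Jw g K x A + (n - 1) * bil (K x) (grad g ψ x) A) := by
  have hg := h.riem₁
  have cA : DifferentiableAt ℝ (fun _ : E n => A) x := differentiableAt_const _
  have h1 := Id.Jw_eq hg hx hS cA
  have h2 := Id.Jw_eq h.riem hx (h.symT hS hK) cA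
  have hKc := hS.contDiffAt hg.isOpen hx
  have e0 : HasFDerivAt (fun y => Real.exp (-ψ y)) (Real.exp (-ψ x) • (-fderiv ℝ ψ x)) x :=
    (((h.contDiffAt hx).differentiableAt (by simp)).hasFDerivAt.neg).exp
  have e1 : tv g₂ K₂ (fun _ => A) =ᶠ[𝓝 x] fun y => Real.exp (-ψ y) • tv g K (fun _ => A) y := by
    filter_upwards [hg.isOpen.mem_nhds hx] with y hy
    rw [tv, h.shpK_eq hK hy]; rfl
  have e2 : traceK g₂ K₂ =ᶠ[𝓝 x] fun y => Real.exp (-ψ y) * traceK g K y := by
    filter_upwards [hg.isOpen.mem_nhds hx] with y hy using h.traceK_eq hK hy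
  have d1 : DifferentiableAt ℝ (tv g K fun _ => A) x :=
    (contDiffAt_tv hg hx le_rfl hKc contDiffAt_const).differentiableAt (by simp)
  have d2 : DifferentiableAt ℝ (traceK g K) x :=
    (contDiffAt_traceK hg hx le_rfl hKc).differentiableAt (by simp)
  rw [divg_congr e1, h.divg_eq hx (e0.differentiableAt.fun_smul d1),
    divg_smul hg hx e0.differentiableAt d1, e2.fderiv_eq, fderiv_fun_mul e0.differentiableAt d2,
    e0.fderiv, h.shpK_eq hK hx, cov_two hg h.riem hx, h.Cd_eq' hx] at h2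
  have e3 : ∀ Z, fderiv ℝ ψ x (shp g K x Z) = bil (K x) (grad g ψ x) Z := fun Z => by
    rw [← bil_grad hg hx, bil_shp' hg hx]
  have e4 : bil (g x) A (shp g K x (grad g ψ x)) = bil (K x) (grad g ψ x) A := by
    rw [bil_shp' hg hx, hS.bil_symm hx]
  simp only [ContinuousLinearMap.comp_add, ContinuousLinearMap.comp_sub,
    ContinuousLinearMap.comp_smul, ContinuousLinearMap.smul_comp, ContinuousLinearMap.comp_id,
    map_add, map_sub, map_smul, trL_comp_smulRight, smul_eq_mul, add_apply, smul_apply, neg_apply,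
    tv, e3, e4, ← Id.traceK_eq hg hx] at h1 h2
  rw [h1, h2]
  ring

end Conf

/-- `R(u^{4/(n-2)} g) = u^{-4/(n-2)} (R - 4 (n-1)/(n-2) Δu / u)`. -/
theorem scalar_rpow (hn : 3 ≤ n) (hg : IsRiemannianOn g U) {u : E n → ℝ}
    (hu : ContDiffOn ℝ ∞ u U) (hpos : ∀ y ∈ U, 0 < u y)
    (h₂ : ∀ y ∈ U, g₂ y = u y ^ (4 / ((n : ℝ) - 2)) • g y) (hx : x ∈ U) :
    Conf g g₂ (fun y => 2 / ((n : ℝ) - 2) * Real.log (u y)) U ∧
    scalarCurv g₂ x = u x ^ (-(4 / ((n : ℝ) - 2))) *
      (scalarCurv g x - 4 * (n - 1) / (n - 2) * laplaceBeltrami g u x / u x) := by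
  have hn2 : (n : ℝ) - 2 ≠ 0 := by
    have : (3 : ℝ) ≤ n := by exact_mod_cast hn
    linarith
  have hc : Conf g g₂ (fun y => 2 / ((n : ℝ) - 2) * Real.log (u y)) U := by
    refine ⟨hg, contDiffOn_const.mul (hu.log fun y hy => (hpos y hy).ne'), fun y hy => ?_⟩
    rw [h₂ y hy, Real.rpow_def_of_pos (hpos y hy)]
    congr 2
    ring
  refine ⟨hc, ?_⟩
  have hux := hpos x hx
  have hu2 : ContDiffAt ℝ 2 u x := (hu.contDiffAt (hg.isOpen.mem_nhds hx)).of_le (by norm_cast)
  have hud : DifferentiableAt ℝ u x := hu2.differentiableAt (by norm_num)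
  have hlog : ContDiffAt ℝ 2 Real.log (u x) := Real.contDiffAt_log.2 hux.ne'
  have hl2 : ContDiffAt ℝ 2 (fun y => Real.log (u y)) x := hu2.log hux.ne'
  have hld : DifferentiableAt ℝ (fun y => Real.log (u y)) x := hl2.differentiableAt (by norm_num)
  have hlogd : DifferentiableAt ℝ Real.log (u x) := hlog.differentiableAt (by norm_num)
  rw [hc.scalar_eq hx, lap_const_mul hg hx _ hl2, lap_comp hg hx hlog hu2,
    gam_const_mul_left _ hld, gam_const_mul_right _ hld, gam_comp_left hlogd hud,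
    gam_comp_right hlogd hud, Real.deriv_log', deriv_inv, Real.rpow_def_of_pos hux]
  congr 1
  · congr 1
    ring
  · field_simp
    ring

end Crest.Agent.N346.Id

end
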