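import Crest.Agent.N346.Id.Flat

/-!
Row 346 (helper90): inequalities for `traceK`, `normSqK`, `eSq` (orthonormal frames), comparison
of `g` and `ḡ`.
-/

set_option autoImplicit false

open scoped ContDiff Topology
open Filter Set
open Crest.GeometryTopology.CoordMetric Crest.MathPhysics.ExteriorData
open Crest.Agent.R202.Tens Crest.Agent.R247.Bo84

noncomputable section

namespace Crest.Agent.N346.Id

variable {n : ℕ} {g T : MetricField n} {U : Set (E n)} {x : E n} {ξ : Fin n → E n}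

lemma traceK_frame (hg : IsRiemannianOn g U) (hx : x ∈ U) (h : IsFrame (g x) ξ)
    (T : MetricField n) : traceK g T x = ∑ a, bil (T x) (ξ a) (ξ a) := by
  rw [traceK_eq hg hx, h.trL_eq hg hx]
  simp only [bil_shp hg hx]

lemma normSqK_frame (hg : IsRiemannianOn g U) (hx : x ∈ U) (h : IsFrame (g x) ξ)
    (hT : ∀ i j, T x i j = T x j i) :
    normSqK g T x = ∑ a, ∑ b, bil (T x) (ξ a) (ξ b) ^ 2 := by
  rw [normSqK_eq hg hx hT, h.trL_eq hg hx]
  refine Finset.sum_congr rfl fun a _ => ?_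
  rw [ContinuousLinearMap.comp_apply, bil_shp hg hx, bil_symm_of hT, ← bil_shp' hg hx T,
    h.bil_eq hg hx]
  refine Finset.sum_congr rfl fun b _ => ?_
  rw [bil_shp hg hx, bil_symm_of hT, _root_.sq]

lemma normSqK_nonneg (hg : IsRiemannianOn g U) (hx : x ∈ U) (hT : ∀ i j, T x i j = T x j i) :
    0 ≤ normSqK g T x := by
  obtain ⟨ξ, hξ⟩ := exists_frame hg hx
  rw [normSqK_frame hg hx hξ hT]
  positivity

/-- `(tr T)² ≤ n |T|²`. -/
lemma traceK_sq_le (hg : IsRiemannianOn g U) (hx : x ∈ U) (hT : ∀ i j, T x i j = T x j i) :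
    traceK g T x ^ 2 ≤ n * normSqK g T x := by
  obtain ⟨ξ, hξ⟩ := exists_frame hg hx
  rw [normSqK_frame hg hx hξ hT, traceK_frame hg hx hξ]
  have h1 : (∑ a, bil (T x) (ξ a) (ξ a)) ^ 2 ≤
      (Finset.univ : Finset (Fin n)).card * ∑ a, bil (T x) (ξ a) (ξ a) ^ 2 :=
    sq_sum_le_card_mul_sum_sq
  rw [Finset.card_univ, Fintype.card_fin] at h1
  refine h1.trans ?_
  gcongr with a _
  exact Finset.single_le_sum (f := fun b => bil (T x) (ξ a) (ξ b) ^ 2)
    (fun b _ => sq_nonneg _) (Finset.mem_univ a)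

/-- `T(Y, Z)² ≤ |T|² |Y|² |Z|²`. -/
lemma bil_sq_le_normSqK (hg : IsRiemannianOn g U) (hx : x ∈ U) (hT : ∀ i j, T x i j = T x j i)
    (Y Z : E n) : bil (T x) Y Z ^ 2 ≤ normSqK g T x * bil (g x) Y Y * bil (g x) Z Z := by
  obtain ⟨ξ, hξ⟩ := exists_frame hg hx
  set p : Fin n → ℝ := fun a => bil (g x) Y (ξ a) with hp
  set q : Fin n → ℝ := fun a => bil (g x) Z (ξ a) with hq
  have h1 : bil (T x) Y Z = ∑ ab : Fin n × Fin n,
      bil (T x) (ξ ab.1) (ξ ab.2) * (p ab.1 * q ab.2) := by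
    rw [Fintype.sum_prod_type]
    have e1 : bil (T x) Y = ∑ a, p a • bil (T x) (ξ a) := by
      conv_lhs => rw [hξ.expand hg hx Y]
      rw [map_sum]
      exact Finset.sum_congr rfl fun a _ => map_smul _ _ _
    rw [e1, sum_apply]
    refine Finset.sum_congr rfl fun a _ => ?_
    rw [smul_apply]
    conv_lhs => rw [hξ.expand hg hx Z]
    rw [map_sum, Finset.smul_sum]
    refine Finset.sum_congr rfl fun b _ => ?_
    rw [map_smul, smul_eq_mul, smul_eq_mul]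
    ring
  rw [h1, normSqK_frame hg hx hξ hT, hξ.bil_eq hg hx Y Y, hξ.bil_eq hg hx Z Z]
  refine (Finset.sum_mul_sq_le_sq_mul_sq _ _ _).trans (le_of_eq ?_)
  rw [Fintype.sum_prod_type, Fintype.sum_prod_type, mul_assoc]
  congr 1
  rw [Finset.sum_mul_sum]
  refine Finset.sum_congr rfl fun a _ => Finset.sum_congr rfl fun b _ => ?_
  simp only [hp, hq]
  ring

/-- `|T(Y, ·)|² ≤ |T|² |Y|²`. -/
lemma shp_sq_le (hg : IsRiemannianOn g U) (hx : x ∈ U) (hT : ∀ i j, T x i j = T x j i) (Y : E n) :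
    bil (g x) (shp g T x Y) (shp g T x Y) ≤ normSqK g T x * bil (g x) Y Y := by
  have h1 := bil_sq_le_normSqK hg hx hT (shp g T x Y) Y
  rw [← bil_shp' hg hx T] at h1
  set s := bil (g x) (shp g T x Y) (shp g T x Y) with hs
  have h0 : 0 ≤ s := bil_self_nonneg hg hx _
  rcases h0.eq_or_lt with h | h
  · rw [← h]
    exact mul_nonneg (normSqK_nonneg hg hx hT) (bil_self_nonneg hg hx Y)
  · rw [_root_.sq, mul_right_comm] at h1
    exact le_of_mul_le_mul_right h1 h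

/-- Euclidean bound for `T` and lower bound for `g` give a bound for `|T|²_g`. -/
lemma normSqK_le_of_bound (hg : IsRiemannianOn g U) (hx : x ∈ U) (hT : ∀ i j, T x i j = T x j i)
    {C k : ℝ} (hC : 0 < C) (hlo : ∀ v, C⁻¹ * ‖v‖ ^ 2 ≤ quadForm g x v)
    (hk : ∀ Y Z, |bil (T x) Y Z| ≤ k * ‖Y‖ * ‖Z‖) : normSqK g T x ≤ (n * C * k) ^ 2 := by
  obtain ⟨ξ, hξ⟩ := exists_frame hg hx
  have h1 : ∀ a, ‖ξ a‖ ^ 2 ≤ C := fun a => by
    have := hlo (ξ a)
    rw [quadForm_eq, hξ.orth, if_pos rfl, inv_mul_le_iff₀ hC] at this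
    linarith
  rw [normSqK_frame hg hx hξ hT]
  have h2 : ∀ a b, bil (T x) (ξ a) (ξ b) ^ 2 ≤ (C * k) ^ 2 := fun a b => by
    have h3 := pow_le_pow_left₀ (abs_nonneg _) (hk (ξ a) (ξ b)) 2
    rw [sq_abs] at h3
    refine h3.trans ?_
    rw [mul_pow, mul_pow, mul_pow]
    nlinarith [mul_le_mul (h1 a) (h1 b) (sq_nonneg _) hC.le, sq_nonneg k]
  refine (Finset.sum_le_sum fun a _ => Finset.sum_le_sum fun b _ => h2 a b).trans (le_of_eq ?_)
  simp only [Finset.sum_const, Finset.card_univ, Fintype.card_fin, nsmul_eq_mul]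
  ring

lemma vecNormSq_eq (g : MetricField n) (V : VectorField n) (x : E n) :
    vecNormSq g V x = bil (g x) (WithLp.toLp 2 (V x)) (WithLp.toLp 2 (V x)) := by
  rw [bil_apply]; rfl

lemma eSq_nonneg (hg : IsRiemannianOn g U) (hx : x ∈ U) (V : VectorField n) : 0 ≤ eSq g V x := by
  rw [eSq, vecNormSq_eq]
  exact div_nonneg (bil_self_nonneg hg hx _) (det_pos hg hx).le

lemma det_eq_vol_sq (hg : IsRiemannianOn g U) (hx : x ∈ U) : (g x).det = volDensity g x ^ 2 :=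
  (Real.sq_sqrt (det_pos hg hx).le).symm

lemma eDot_eq (g : MetricField n) (V : VectorField n) (x w : E n) :
    eDot g V x w = bil (g x) w (WithLp.toLp 2 (V x)) / volDensity g x := by
  rw [eDot, bil_apply]

lemma Conf.eSq_eq {g₂ : MetricField n} {ψ : E n → ℝ} (h : Conf g g₂ ψ U) (hx : x ∈ U)
    (V : VectorField n) : eSq g₂ V x = Real.exp (-(2 * ((n : ℝ) - 1) * ψ x)) * eSq g V x := by
  rw [eSq, eSq, vecNormSq_eq, vecNormSq_eq, h.bil_eq hx, det_eq_vol_sq h.riem hx,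
    det_eq_vol_sq h.riem₁ hx, h.volDensity_eq hx, mul_pow, ← Real.exp_nat_mul, mul_div_mul_comm,
    ← Real.exp_sub]
  congr 2
  push_cast
  ring

namespace Jd

variable {φ f : E n → ℝ}

/-- `|Ē|²_ḡ = (1 - p) |E|²_g + g(w, E)²`. -/
theorem eSq_gb (hd : Jd g φ f U) (hx : x ∈ U) (V : VectorField n) :
    eSq (gb g φ f) V x = (1 - pp g φ f x) * eSq g V x + eDot g V x (wv g φ f x) ^ 2 := by
  have h1 := hd.gm_pos hx
  have h2 := (Real.sqrt_pos.2 (det_pos hd.riem hx) : 0 < volDensity g x)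
  rw [eSq, eSq, eDot_eq, vecNormSq_eq, vecNormSq_eq, hd.bil_gb hx, det_eq_vol_sq hd.riemb hx,
    det_eq_vol_sq hd.riem hx, hd.volDensity_gb hx, hd.one_sub_pp hx]
  field_simp

theorem eSq_gb_le (hd : Jd g φ f U) (hx : x ∈ U) (V : VectorField n) :
    eSq (gb g φ f) V x ≤ eSq g V x := by
  have h2 := (Real.sqrt_pos.2 (det_pos hd.riem hx) : 0 < volDensity g x)
  have h3 := bil_sq_le hd.riem hx (wv g φ f x) (WithLp.toLp 2 (V x))
  rw [hd.bil_wv_wv hx] at h3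
  have h4 : eDot g V x (wv g φ f x) ^ 2 ≤ pp g φ f x * eSq g V x := by
    rw [eDot_eq, eSq, vecNormSq_eq, det_eq_vol_sq hd.riem hx, div_pow, ← mul_div_assoc]
    gcongr
  rw [hd.eSq_gb hx]
  linarith

/-- `ḡ ≤ γ² g`. -/
theorem gb_le (hd : Jd g φ f U) (hx : x ∈ U) (Y : E n) :
    bil (gb g φ f x) Y Y ≤ gm g φ f x ^ 2 * bil (g x) Y Y := by
  have h3 := bil_sq_le hd.riem hx (wv g φ f x) Y
  rw [hd.bil_wv_wv hx] at h3
  have h4 := hd.gm_sq_mul hx
  have h5 := mul_le_mul_of_nonneg_left h3 (_root_.sq_nonneg (gm g φ f x))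
  have h6 : gm g φ f x ^ 2 * (pp g φ f x * bil (g x) Y Y) =
      gm g φ f x ^ 2 * bil (g x) Y Y - bil (g x) Y Y := by
    linear_combination (-bil (g x) Y Y) * h4
  rw [hd.bil_gb hx]
  nlinarith

theorem normSqK_gb_le (hd : Jd g φ f U) (hx : x ∈ U) (hT : ∀ i j, T x i j = T x j i) :
    normSqK (gb g φ f) T x ≤ normSqK g T x := by
  rw [hd.normSqK_g hx hT]
  nlinarith [bil_self_nonneg hd.riemb hx (tv (gb g φ f) T (wv g φ f) x),
    _root_.sq_nonneg (bil (T x) (wv g φ f x) (wv g φ f x))]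

theorem gam_gb_le (hd : Jd g φ f U) (hx : x ∈ U) (u : E n → ℝ) :
    gam (gb g φ f) u u x ≤ gam g u u x := by
  rw [hd.gam_gb hx]
  nlinarith [mul_self_nonneg (fderiv ℝ u x (wv g φ f x))]

theorem pp_le_sq (hd : Jd g φ f U) (hx : x ∈ U) : pp g φ f x ≤ sq g φ f x :=
  div_le_self (hd.sq_nonneg hx) (by linarith [hd.sq_nonneg hx])

/-- `ḡ(w, w) = γ² p = s`. -/
theorem gb_wv_wv (hd : Jd g φ f U) (hx : x ∈ U) :
    bil (gb g φ f x) (wv g φ f x) (wv g φ f x) = sq g φ f x := by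
  rw [hd.gb_wv hx, hd.bil_wv_wv hx, hd.gm_sq_mul_pp hx]

end Jd

end Crest.Agent.N346.Id

end
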