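import Crest.Agent.N346.Id.Jang2

/-!
Row 346, Part 1 (helper90): the generalised Schoen–Yau identity (E) `id_E`, the Gauss identity (G)
`id_G`, the static identities (C) `id_C_mu`, `id_C_J`, and (N) for constant `φ` (`lap_gb_ell`).
-/

set_option autoImplicit false

open scoped ContDiff Topology
open Filter Set
open Crest.GeometryTopology.CoordMetric Crest.MathPhysics.ExteriorData
open Crest.Agent.R202.Tens Crest.Agent.R247.Bo84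

noncomputable section

namespace Crest.Agent.N346.Id

variable {n : ℕ} {g K : MetricField n} {φ f : E n → ℝ} {U : Set (E n)} {x : E n}

local notation "ḡ" => gb g φ f
local notation "𝓌" => wv g φ f
local notation "𝒽" => hh g φ f
local notation "γ" => gm g φ f
local notation "𝓅" => pp g φ f
local notation "𝒶" => aa g φ f
local notation "ℓ" => ell g φ f
local notation "𝒱" => Vv g φ f
local notation "𝒬" => Qv g φ f
local notation "𝔓" => Pv g φ f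
local notation "ℋ" => H0 g φ f
local notation "Θ" => Th g φ f K
local notation "𝓆" => qv g φ f K
local notation "𝒵" => ZZ g φ f K

namespace Jd

variable (g K φ f x) in
lemma Th_eq : Θ x = ℋ x - traceK ḡ K x :=
  traceK_sub _ _ _ _

variable (g K φ f x) in
lemma shp_ZZ (G : MetricField n) : shp G 𝒵 x = shp G 𝒽 x - shp G K x := shp_sub _ _ _ _

variable (g K φ f x) in
lemma qv_eq : 𝓆 x = 𝒬 x - tv ḡ K 𝓌 x := by
  rw [qv, tv, shp_ZZ]; rfl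

lemma gb_qv (hd : Jd g φ f U) (hK : SymT K U) (hx : x ∈ U) (Y : E n) :
    bil (ḡ x) (𝓆 x) Y = bil (𝒵 x) (𝓌 x) Y := by
  rw [qv, tv, bil_shp hd.riemb hx, (hd.symT_ZZ hK).bil_symm hx]

/-- `|T|²_g = |T|²_ḡ + 2 |T(w, ·)|²_ḡ + T(w, w)²`. -/
lemma normSqK_g (hd : Jd g φ f U) (hx : x ∈ U) {T : MetricField n} (hT : ∀ i j, T x i j = T x j i) :
    normSqK g T x = normSqK ḡ T x + 2 * bil (ḡ x) (tv ḡ T 𝓌 x) (tv ḡ T 𝓌 x)
      + bil (T x) (𝓌 x) (𝓌 x) ^ 2 := by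
  have e : shp g T x = shp ḡ T x + (bil (T x) (𝓌 x)).smulRight (𝓌 x) := by
    rw [hd.shp_gb hx]; abel
  rw [normSqK_eq hd.riem hx hT, normSqK_eq hd.riemb hx hT, e, tv, bil_shp hd.riemb hx,
    bil_symm_of hT]
  simp only [ContinuousLinearMap.comp_add, ContinuousLinearMap.add_comp, map_add,
    trL_comp_smulRight, trL_smulRight_comp, ContinuousLinearMap.smulRight_apply, map_smul,
    smul_eq_mul]
  ring

/-- the `ḡ`-divergence of `ḡ⁻¹ K(w, ·)`. -/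
lemma divg_gb_tv (hd : Jd g φ f U) (hK : SymT K U) (hx : x ∈ U) :
    divg ḡ (tv ḡ K 𝓌) x = Jw g K x (𝓌 x) + fderiv ℝ (traceK ḡ K) x (𝓌 x)
      + trL ((shp ḡ K x).comp (shp ḡ 𝒽 x)) + 2 * bil (ḡ x) (𝒬 x) (tv ḡ K 𝓌 x)
      - bil (K x) (𝓌 x) (𝒱 x) - bil (K x) (𝓌 x) (𝓌 x) * ℋ x := by
  have hKc := hK.contDiffAt hd.isOpen hx
  have dw : DifferentiableAt ℝ 𝓌 x := (hd.c_wv hx).differentiableAt (by simp)
  have dk : DifferentiableAt ℝ (tv ḡ K 𝓌) x :=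
    (contDiffAt_tv hd.riemb hx le_rfl hKc (hd.c_wv hx)).differentiableAt (by simp)
  have dk' : DifferentiableAt ℝ (tv g K 𝓌) x :=
    (contDiffAt_tv hd.riem hx le_rfl hKc (hd.c_wv hx)).differentiableAt (by simp)
  have dκ : DifferentiableAt ℝ (fun y => bil (K y) (𝓌 y) (𝓌 y)) x :=
    (contDiffAt_bil_apply hKc (hd.c_wv hx) (hd.c_wv hx)).differentiableAt (by simp)
  have dt : DifferentiableAt ℝ (traceK g K) x :=
    (contDiffAt_traceK hd.riem hx le_rfl hKc).differentiableAt (by simp)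
  have e1 : tv ḡ K 𝓌 =ᶠ[𝓝 x] fun y => tv g K 𝓌 y - bil (K y) (𝓌 y) (𝓌 y) • 𝓌 y := by
    filter_upwards [hd.nhds hx] with y hy
    rw [tv, hd.shp_gb hy]; rfl
  have e2 : traceK ḡ K =ᶠ[𝓝 x] fun y => traceK g K y - bil (K y) (𝓌 y) (𝓌 y) := by
    filter_upwards [hd.nhds hx] with y hy using hd.traceK_gb hy K
  have e3 : shp g K x = shp ḡ K x + (bil (K x) (𝓌 x)).smulRight (𝓌 x) := by
    rw [hd.shp_gb hx]; abel
  have e4 : bil (K x) (𝓌 x) (shp ḡ 𝒽 x (𝓌 x)) = bil (ḡ x) (𝒬 x) (tv ḡ K 𝓌 x) := by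
    rw [tv, bil_shp' hd.riemb hx, hK.bil_symm hx]; rfl
  rw [hd.divg_gb hx dk, divg_congr e1, divg_sub hd.riem hx dk' (dκ.fun_smul dw),
    divg_smul hd.riem hx dκ dw, divg_tv hd.riem hx hK dw, e2.fderiv_eq, fderiv_fun_sub dt dκ,
    hd.divg_wv hx, hd.fderiv_ell hx, ← hd.gb_Qv hx, hd.cov_wv hx, e3]
  simp only [ContinuousLinearMap.comp_sub, ContinuousLinearMap.add_comp, map_sub, map_add,
    trL_comp_smulRight, trL_smulRight_comp, ContinuousLinearMap.smulRight_apply, map_smul,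
    sub_apply, smul_eq_mul, e4, hd.wv_shp_gb hx, hd.bil_wv_wv hx]
  rw [tv, hd.wv_shp_gb hx]
  ring

/-- **(E)**, the generalised Schoen–Yau identity. -/
theorem id_E (hd : Jd g φ f U) (hK : SymT K U) (hx : x ∈ U) :
    scalarCurv ḡ x = 2 * (energyDensity g K x - Jw g K x (𝓌 x)) + normSqK ḡ 𝒵 x
      + 2 * bil (ḡ x) (𝓆 x) (𝓆 x) - 2 * (divg ḡ (fun y => φ y • 𝓆 y) x / φ x) + Θ x ^ 2
      + 2 * Θ x * traceK g K x + 2 * fderiv ℝ Θ x (𝓌 x) := by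
  have hφ := hd.φ_pos x hx
  have hKc := hK.contDiffAt hd.isOpen hx
  have dQ : DifferentiableAt ℝ 𝒬 x := (hd.c_Qv hx).differentiableAt (by simp)
  have dq : DifferentiableAt ℝ 𝓆 x := (hd.c_qv hK hx).differentiableAt (by simp)
  have dH : DifferentiableAt ℝ ℋ x := (hd.c_H0 hx).differentiableAt (by simp)
  have dk : DifferentiableAt ℝ (tv ḡ K 𝓌) x :=
    (contDiffAt_tv hd.riemb hx le_rfl hKc (hd.c_wv hx)).differentiableAt (by simp)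
  have dt : DifferentiableAt ℝ (traceK ḡ K) x :=
    (contDiffAt_traceK hd.riemb hx le_rfl hKc).differentiableAt (by simp)
  have e1 : 𝓆 = fun y => 𝒬 y - tv ḡ K 𝓌 y := funext fun y => qv_eq g K φ f y
  have e2 : Θ = fun y => ℋ y - traceK ḡ K y := funext fun y => Th_eq g K φ f y
  have h1 := hd.id_E0 hx
  have h2 := hd.divg_gb_tv hK hx
  have h3 : divg ḡ (fun y => φ y • 𝓆 y) x / φ x = divg ḡ 𝒬 x - divg ḡ (tv ḡ K 𝓌) x
      + (bil (ḡ x) (𝒬 x) (𝒱 x) - bil (K x) (𝓌 x) (𝒱 x)) := by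
    rw [divg_smul hd.riemb hx (hd.dφ hx) dq, hd.fderiv_phi hx, ← mul_add,
      mul_div_cancel_left₀ _ hφ.ne', ← hd.gb_Vv hx, bil_symm hd.riemb hx (𝒱 x), qv_eq, map_sub,
      sub_apply, tv, bil_shp hd.riemb hx, hK.bil_symm hx (𝒱 x), e1, divg_sub hd.riemb hx dQ dk]
  have h4 : normSqK ḡ 𝒵 x = normSqK ḡ 𝒽 x - 2 * trL ((shp ḡ K x).comp (shp ḡ 𝒽 x))
      + normSqK ḡ K x := by
    rw [normSqK_eq hd.riemb hx ((hd.symT_ZZ hK).symm x hx), hd.normSqK_hh hx,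
      normSqK_eq hd.riemb hx (hK.symm x hx), shp_ZZ]
    simp only [ContinuousLinearMap.comp_sub, ContinuousLinearMap.sub_comp, map_sub]
    rw [trL_comp_comm (shp ḡ 𝒽 x) (shp ḡ K x)]
    ring
  have h5 : bil (ḡ x) (𝓆 x) (𝓆 x) = bil (ḡ x) (𝒬 x) (𝒬 x) - 2 * bil (ḡ x) (𝒬 x) (tv ḡ K 𝓌 x)
      + bil (ḡ x) (tv ḡ K 𝓌 x) (tv ḡ K 𝓌 x) := by
    rw [qv_eq]
    simp only [map_sub, sub_apply]
    rw [bil_symm hd.riemb hx (tv ḡ K 𝓌 x) (𝒬 x)]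
    ring
  have h6 := hd.normSqK_g hx (hK.symm x hx)
  have h7 : fderiv ℝ Θ x (𝓌 x) = fderiv ℝ ℋ x (𝓌 x) - fderiv ℝ (traceK ḡ K) x (𝓌 x) := by
    rw [e2, fderiv_fun_sub dH dt, sub_apply]
  rw [h3, h4, h5, h7, energyDensity, h6, Th_eq, hd.traceK_gb hx K, h2]
  linear_combination h1

lemma hess_lv (hd : Jd g φ f U) (hx : x ∈ U) (G : MetricField n) (A B : E n) :
    hess G φ x A B / φ x = hess G (lv φ) x A B + fderiv ℝ (lv φ) x A * fderiv ℝ (lv φ) x B := by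
  have hφ := hd.φ_pos x hx
  have h1 := hess_comp (g := G) (φ := Real.log) (f := φ) (Real.contDiffAt_log.2 hφ.ne')
    (hd.cφ2 hx) A B
  rw [Real.deriv_log', deriv_inv] at h1
  change hess G (lv φ) x A B = _ at h1
  rw [h1, hd.fderiv_lv hx, hd.fderiv_lv hx]
  field_simp
  ring

lemma lap_lv (hd : Jd g φ f U) (hx : x ∈ U) {G : MetricField n} (hG : IsRiemannianOn G U) :
    laplaceBeltrami G φ x / φ x = laplaceBeltrami G (lv φ) x + gam G (lv φ) (lv φ) x := by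
  have hφ := hd.φ_pos x hx
  have hl : ContDiffAt ℝ 2 Real.log (φ x) := Real.contDiffAt_log.2 hφ.ne'
  have h1 := lap_comp hG hx hl (hd.cφ2 hx)
  have h2 : gam G (lv φ) (lv φ) x = (φ x)⁻¹ * ((φ x)⁻¹ * gam G φ φ x) := by
    have h3 := gam_comp_left (g := G) (k := lv φ) (hl.differentiableAt (by norm_num)) (hd.dφ hx)
    have h4 := gam_comp_right (g := G) (k := φ) (hl.differentiableAt (by norm_num)) (hd.dφ hx)
    rw [Real.deriv_log] at h3 h4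
    exact h3.trans (congrArg _ h4)
  rw [Real.deriv_log', deriv_inv] at h1
  change laplaceBeltrami G (lv φ) x = _ at h1
  rw [h1, h2]
  field_simp
  ring

/-- `div_ḡ P`. -/
theorem divg_gb_Pv (hd : Jd g φ f U) (hx : x ∈ U) :
    divg ḡ 𝔓 x = (𝓅 x * laplaceBeltrami g φ x - hess g φ x (𝓌 x) (𝓌 x)) / φ x
      + (1 - 𝓅 x) * bil (ḡ x) (𝒬 x) (𝒱 x) + (1 - 𝓅 x) * 𝒶 x * bil (𝒽 x) (𝓌 x) (𝓌 x)
      - 𝒶 x * ℋ x := by
  have hv2 : ContDiffAt ℝ 2 (lv φ) x := (hd.c_lv hx).of_le (by norm_cast)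
  have dw : DifferentiableAt ℝ 𝓌 x := (hd.c_wv hx).differentiableAt (by simp)
  have dp : DifferentiableAt ℝ 𝓅 x := (hd.c_pp hx).differentiableAt (by simp)
  have da : DifferentiableAt ℝ 𝒶 x := (hd.c_aa hx).differentiableAt (by simp)
  have dP : DifferentiableAt ℝ 𝔓 x := (hd.c_Pv hx).differentiableAt (by simp)
  have dg := differentiableAt_grad hd.riem hx hv2
  have e1 : divg g 𝔓 x = divg g (fun y => 𝓅 y • grad g (lv φ) y - 𝒶 y • 𝓌 y) x := rfl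
  have e2 : fderiv ℝ 𝒶 x (𝓌 x) = hess g (lv φ) x (𝓌 x) (𝓌 x)
      + fderiv ℝ (lv φ) x (cov g 𝓌 x (𝓌 x)) := fderiv_fderiv_apply hv2 dw g _
  have e3 : grad g (lv φ) x = 𝒱 x + 𝒶 x • 𝓌 x := by rw [hd.Vv_eq hx]; abel
  have e4 : fderiv ℝ (lv φ) x (𝒬 x) = bil (𝒽 x) (𝓌 x) (𝒱 x) := by
    rw [← hd.gb_Vv hx, bil_symm hd.riemb hx, hd.gb_Qv hx]
  have e5 : fderiv ℝ (lv φ) x (𝒱 x) = gam g (lv φ) (lv φ) x - 𝒶 x * 𝒶 x := by
    rw [aa, ← hd.gam_gb hx, gam_eq_fderiv_grad]; rfl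
  rw [sub_div, mul_div_assoc, hd.lap_lv hx hd.riem, hd.hess_lv hx, hd.divg_gb hx dP, e1,
    divg_sub hd.riem hx (dp.fun_smul dg) (da.fun_smul dw), divg_smul hd.riem hx dp dg,
    divg_smul hd.riem hx da dw, divg_grad, hd.fderiv_pp hx, e2, hd.cov_wv_wv hx, hd.divg_wv hx,
    hd.Pv_eq hx, e3, ← aa]
  simp only [map_sub, map_add, map_smul, smul_eq_mul, hd.fderiv_ell hx, hd.bil_wv_wv hx,
    hd.wv_Vv hx, hd.gb_Qv hx, e4, e5]
  ring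

/-- `|h + a X ⊗ X|²_ḡ`. -/
lemma normSqK_hh_add (hd : Jd g φ f U) (hx : x ∈ U) :
    normSqK ḡ (fun y => 𝒽 y + 𝒶 y • XX φ f y) x = normSqK ḡ 𝒽 x
      + 2 * (1 - 𝓅 x) * 𝒶 x * bil (𝒽 x) (𝓌 x) (𝓌 x) + (𝓅 x * 𝒶 x) ^ 2 := by
  have hs : ∀ i j, (𝒽 x + 𝒶 x • XX φ f x) i j = (𝒽 x + 𝒶 x • XX φ f x) j i := by
    intro i j
    simp only [Matrix.add_apply, Matrix.smul_apply]
    rw [hd.symT_hh.symm x hx, hd.symT_XX.symm x hx]
  have e : shp ḡ (XX φ f) x = (bil (g x) (𝓌 x)).smulRight (𝓌 x) := by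
    refine shp_eq_of_bil hd.riemb hx fun Y Z => ?_
    rw [ContinuousLinearMap.smulRight_apply, map_smul, smul_apply, hd.gb_wv hx, hd.bil_XX' hx,
      smul_eq_mul]
    ring
  rw [normSqK_eq hd.riemb hx hs, hd.normSqK_hh hx, shp_add, shp_smul, e]
  simp only [ContinuousLinearMap.comp_add, ContinuousLinearMap.add_comp, map_add,
    ContinuousLinearMap.comp_smul, ContinuousLinearMap.smul_comp,
    trL_comp_smulRight, trL_smulRight_comp, ContinuousLinearMap.smulRight_apply, map_smul,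
    smul_eq_mul, hd.wv_shp_gb hx, hd.bil_wv_wv hx]
  ring

/-- **(G)**, first form. -/
theorem id_G' (hd : Jd g φ f U) (hx : x ∈ U) :
    scalarCurv ḡ x = scalarCurv g x - 2 * bil (ricM g x) (𝓌 x) (𝓌 x)
      - 2 * ((𝓅 x * laplaceBeltrami g φ x - hess g φ x (𝓌 x) (𝓌 x)) / φ x)
      + ℋ x ^ 2 + 2 * 𝓅 x * 𝒶 x * ℋ x - normSqK ḡ 𝒽 x
      - 2 * (1 - 𝓅 x) * 𝒶 x * bil (𝒽 x) (𝓌 x) (𝓌 x) := by
  have h1 := hd.id_GD hx
  rw [hd.divg_gb_Pv hx] at h1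
  linear_combination h1

/-- **(G)**. -/
theorem id_G (hd : Jd g φ f U) (hx : x ∈ U) :
    scalarCurv ḡ x = scalarCurv g x - 2 * bil (ricM g x) (𝓌 x) (𝓌 x)
      - 2 * ((𝓅 x * laplaceBeltrami g φ x - hess g φ x (𝓌 x) (𝓌 x)) / φ x)
      + (ℋ x + 𝓅 x * 𝒶 x) ^ 2 - normSqK ḡ (fun y => 𝒽 y + 𝒶 y • XX φ f y) x := by
  rw [hd.id_G' hx, hd.normSqK_hh_add hx]
  ring

/-- (N) where `φ` is locally constant: `Δ̄ℓ = |∇̄ℓ|² + |h|² + Ric(w, w) + w(H₀)`. -/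
theorem lap_gb_ell (hd : Jd g φ f U) (hx : x ∈ U) {c : ℝ} (hc : φ =ᶠ[𝓝 x] fun _ => c) :
    laplaceBeltrami ḡ ℓ x = gam ḡ ℓ ℓ x + normSqK ḡ 𝒽 x + bil (ricM g x) (𝓌 x) (𝓌 x)
      + fderiv ℝ ℋ x (𝓌 x) := by
  have h0 : ∀ᶠ y in 𝓝 x, fderiv ℝ (lv φ) y = 0 := by
    filter_upwards [hc.eventuallyEq_nhds] with y hy
    have : lv φ =ᶠ[𝓝 y] fun _ => Real.log c := by
      filter_upwards [hy] with z hz
      rw [lv, hz]
    rw [this.fderiv_eq, fderiv_fun_const, Pi.zero_apply]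
  have h1 : ∀ᶠ y in 𝓝 x, 𝒶 y = 0 ∧ 𝒱 y = 0 := by
    filter_upwards [h0] with y hy
    exact ⟨by rw [aa, hy, zero_apply], by rw [Vv, grad_eq_sharp, hy, map_zero]⟩
  have e1 : (fun y => 𝒬 y - 𝔓 y) =ᶠ[𝓝 x] grad ḡ ℓ := by
    filter_upwards [h1, hd.nhds hx] with y hy hy'
    rw [hd.grad_gb_ell hy', hd.Pv_eq hy', hy.1, hy.2]
    simp
  have h2 := hd.id_N hx
  have h3 := h1.self_of_nhds
  rw [divg_congr e1, divg_grad, h3.1, h3.2] at h2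
  rw [h2, gam_eq_bil hd.riemb hx, hd.grad_gb_ell hx, h3.1]
  simp only [mul_zero, zero_smul, sub_zero, map_zero]
  ring

/-- **(C)**, energy: for `K = h`, `μ = R̄/2 + J(w)`. -/
theorem id_C_mu (hd : Jd g φ f U) (hx : x ∈ U) :
    energyDensity g 𝒽 x = scalarCurv ḡ x / 2 + Jw g 𝒽 x (𝓌 x) := by
  have h1 := hd.id_E hd.symT_hh hx
  have e0 : ZZ g φ f 𝒽 = fun _ => 0 := funext fun y => sub_self _
  have e1 : Th g φ f 𝒽 = fun _ => 0 := by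
    funext y
    rw [Th_eq]; exact sub_self _
  have e2 : qv g φ f 𝒽 = fun _ => 0 := by
    funext y
    rw [qv_eq]; exact sub_self _
  rw [e0, e1, e2] at h1
  simp [normSqK, divg, pderiv] at h1
  rw [h1]
  ring

/-- **(C)**, momentum: for `K = h`,
`J(Y) = Ric̄(Y, w) - Hess̄ φ(Y, w)/φ + (Δ̄φ/φ) ḡ(Y, w)`. -/
theorem id_C_J (hd : Jd g φ f U) (hx : x ∈ U) (Y : E n) :
    Jw g 𝒽 x Y = bil (ricM ḡ x) Y (𝓌 x) - hess ḡ φ x Y (𝓌 x) / φ x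
      + laplaceBeltrami ḡ φ x / φ x * bil (ḡ x) Y (𝓌 x) := by
  have hv2 : ContDiffAt ℝ 2 (lv φ) x := (hd.c_lv hx).of_le (by norm_cast)
  have hw2 : ContDiffAt ℝ 2 𝓌 x := (hd.c_wv hx).of_le (by norm_cast)
  have dw : DifferentiableAt ℝ 𝓌 x := hw2.differentiableAt (by norm_num)
  have dV : DifferentiableAt ℝ 𝒱 x := (hd.c_Vv hx).differentiableAt (by simp)
  have da : DifferentiableAt ℝ 𝒶 x := (hd.c_aa hx).differentiableAt (by simp)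
  have cY : DifferentiableAt ℝ (fun _ : E n => Y) x := differentiableAt_const _
  have dA : DifferentiableAt ℝ (tv g 𝒽 fun _ => Y) x :=
    (contDiffAt_tv hd.riem hx le_rfl (hd.c_hh hx) contDiffAt_const).differentiableAt (by simp)
  have dc : DifferentiableAt ℝ (fun y => cov ḡ 𝓌 y Y) x :=
    ((contDiffAt_cov hd.riemb hx (m := 1) hw2 (by norm_num) (by simp)).differentiableAt
      (by norm_num)).clm_apply cY
  have dβ : DifferentiableAt ℝ (fun y => bil (ḡ y) (𝓌 y) Y) x :=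
    differentiableAt_bil hd.riemb hx dw cY
  have dd : DifferentiableAt ℝ (divg ḡ 𝓌) x :=
    (contDiffAt_divg hd.riemb hx (m := 1) hw2 (by norm_num) (by norm_cast)).differentiableAt
      (by norm_num)
  have hA : ∀ y ∈ U, shp g 𝒽 y = cov ḡ 𝓌 y + (bil (ḡ y) (𝓌 y)).smulRight (𝒱 y) := by
    intro y hy
    rw [hd.cov_gb_wv hy]; abel
  have e1 : (tv g 𝒽 fun _ => Y) =ᶠ[𝓝 x] fun y => cov ḡ 𝓌 y Y + bil (ḡ y) (𝓌 y) Y • 𝒱 y := by
    filter_upwards [hd.nhds hx] with y hy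
    rw [tv, hA y hy]; rfl
  have e2 : traceK g 𝒽 =ᶠ[𝓝 x] fun y => divg ḡ 𝓌 y + 𝒶 y := by
    filter_upwards [hd.nhds hx] with y hy
    rw [traceK_eq hd.riem hy, hA y hy, map_add, trL_smulRight, bil_symm hd.riemb hy, hd.gb_Vv hy,
      divg_eq_trL hd.riemb hy ((hd.c_wv hy).differentiableAt (by simp)), aa]
  have e3 : fderiv ℝ 𝒶 x Y = hess ḡ (lv φ) x Y (𝓌 x) + fderiv ℝ (lv φ) x (cov ḡ 𝓌 x Y) :=
    fderiv_fderiv_apply hv2 dw ḡ _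
  have e4 : cov g (fun _ => Y) x = cov ḡ (fun _ => Y) x - Cd g ḡ x Y := by
    rw [cov_two hd.riem hd.riemb hx]; abel
  have e5 : trL ((shp g 𝒽 x).comp (cov ḡ (fun _ => Y) x)) =
      trL ((cov ḡ 𝓌 x).comp (cov ḡ (fun _ => Y) x))
        + bil (ḡ x) (𝓌 x) (cov ḡ (fun _ => Y) x (𝒱 x)) := by
    rw [hA x hx, ContinuousLinearMap.add_comp, map_add, trL_smulRight_comp]
  have e6 : ∀ A B, bil (ḡ x) (shp g 𝒽 x A) B = bil (𝒽 x) B A
      + γ x ^ 2 * bil (𝒽 x) (𝓌 x) A * bil (g x) (𝓌 x) B := fun A B => by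
    rw [hd.bil_gb hx, bil_shp hd.riem hx, bil_shp' hd.riem hx]
  have e7 : bil (𝒽 x) (𝓌 x) (shp g 𝒽 x Y) = bil (𝒽 x) Y (shp g 𝒽 x (𝓌 x)) := by
    rw [hd.hh_symm hx (𝓌 x), ← bil_shp' hd.riem hx 𝒽 (𝓌 x) (shp g 𝒽 x Y), hd.hh_symm hx Y,
      ← bil_shp' hd.riem hx 𝒽 Y (shp g 𝒽 x (𝓌 x)), bil_symm hd.riem hx]
  have h1 := Jw_eq hd.riem hx hd.symT_hh cY
  have h2 := hd.divg_gb hx dA
  rw [divg_congr e1, divg_add hd.riemb hx dc (dβ.fun_smul dV), divg_smul hd.riemb hx dβ dV,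
    divg_cov hd.riemb hx hw2 cY, fderiv_bil hd.riemb hx dw cY] at h2
  rw [e2.fderiv_eq, fderiv_fun_add dd da, add_apply, e3, e4, ContinuousLinearMap.comp_sub, map_sub,
    e5] at h1
  have h3 : divg ḡ 𝒱 x = laplaceBeltrami ḡ (lv φ) x := rfl
  have h4 : gam ḡ (lv φ) (lv φ) x = fderiv ℝ (lv φ) x (𝒱 x) := gam_eq_fderiv_grad _ _ _ _
  have h5 : trL ((shp g 𝒽 x).comp (Cd g ḡ x Y)) = bil (𝒽 x) Y (shp g 𝒽 x (𝓌 x))
      - γ x ^ 2 * bil (g x) (𝓌 x) Y * bil (𝒽 x) (𝓌 x) (𝒱 x) := by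
    rw [hd.Cd_gb' hx, ContinuousLinearMap.comp_sub, ContinuousLinearMap.comp_smul, map_sub,
      map_smul, trL_comp_smulRight, trL_comp_smulRight, bil_shp' hd.riem hx, smul_eq_mul]
  have h6 : bil (ḡ x) (cov ḡ 𝓌 x (𝒱 x)) Y = bil (𝒽 x) Y (𝒱 x)
      + γ x ^ 2 * bil (𝒽 x) (𝓌 x) (𝒱 x) * bil (g x) (𝓌 x) Y
      - 𝒶 x * fderiv ℝ (lv φ) x Y := by
    rw [hd.cov_gb_wv hx, sub_apply, map_sub, sub_apply, e6, ContinuousLinearMap.smulRight_apply,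
      map_smul, smul_apply, hd.gb_Vv hx, bil_symm hd.riemb hx, hd.gb_Vv hx, smul_eq_mul, aa]
  have h7 : fderiv ℝ (lv φ) x (cov ḡ 𝓌 x Y) = bil (𝒽 x) Y (𝒱 x) + 𝒶 x * bil (𝒽 x) (𝓌 x) Y
      - γ x ^ 2 * bil (g x) (𝓌 x) Y * fderiv ℝ (lv φ) x (𝒱 x) := by
    rw [← hd.gb_Vv hx (cov ḡ 𝓌 x Y), bil_symm hd.riemb hx, hd.cov_gb_wv hx, sub_apply, map_sub,
      sub_apply, e6, ContinuousLinearMap.smulRight_apply, map_smul, smul_apply, hd.gb_Vv hx,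
      hd.gb_wv hx, hd.wv_Vv hx, hd.hh_symm hx (𝒱 x) Y, smul_eq_mul]
    linear_combination (𝒶 x * bil (𝒽 x) (𝓌 x) Y) * hd.gm_sq_mul hx
  have h8 : fderiv ℝ ℓ x (tv g 𝒽 (fun _ => Y) x) = bil (𝒽 x) Y (shp g 𝒽 x (𝓌 x))
      - 𝒶 x * bil (𝒽 x) (𝓌 x) Y := by
    rw [hd.fderiv_ell hx, tv, e7, bil_shp' hd.riem hx]
  rw [h3, h6, h8] at h2
  rw [h5, h7] at h1
  rw [hd.lap_lv hx hd.riemb, hd.hess_lv hx, h4, ricM_symm hd.riemb hx Y,
    bil_symm hd.riemb hx Y, hd.gb_wv hx Y, ← aa]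
  rw [hd.gb_wv hx Y] at h2
  linarith

end Jd

end Crest.Agent.N346.Id

end
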