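import Crest.Agent.N346.Id.Jang3

/-!
Row 346 (helper90): constant metrics are flat; small adaptors (`Jw_ee`, locality of curvature).
-/

set_option autoImplicit false

open scoped ContDiff Topology
open Filter Set
open Crest.GeometryTopology.CoordMetric Crest.MathPhysics.ExteriorData
open Crest.Agent.R202.Tens Crest.Agent.R247.Bo84

noncomputable section

namespace Crest.Agent.N346.Id

variable {n : ℕ} {b : Matrix (Fin n) (Fin n) ℝ}

lemma Jw_ee (g K : MetricField n) (x : E n) (i : Fin n) :
    Jw g K x (ee i) = momentumDensity g K x i := by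
  rw [Jw, Finset.sum_eq_single i]
  · simp
  · intro j _ hj
    simp [hj]
  · simp

lemma fderiv_ee (u : E n → ℝ) (x : E n) (i : Fin n) : fderiv ℝ u x (ee i) = pderiv i u x := rfl

lemma bil_ee_right (M : Matrix (Fin n) (Fin n) ℝ) (Y : E n) (j : Fin n) :
    bil M Y (ee j) = ∑ i, M i j * Y i := by
  rw [bil_eq_mat]
  exact Finset.sum_congr rfl fun i _ => by rw [mat_ee, mul_comm]

lemma riem_const (hb : b.PosDef) : IsRiemannianOn (fun _ : E n => b) univ :=
  ⟨isOpen_univ, fun _ _ => contDiffOn_const, fun _ _ => hb⟩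

lemma christoffel_const (b : Matrix (Fin n) (Fin n) ℝ) (x : E n) (k i j : Fin n) :
    christoffel (fun _ : E n => b) x k i j = 0 := by
  simp [christoffel, pderiv]

lemma ricci_const (b : Matrix (Fin n) (Fin n) ℝ) (x : E n) (i j : Fin n) :
    ricci (fun _ : E n => b) x i j = 0 := by
  simp [ricci, christoffel_const, pderiv]

lemma bil_ricM_const (b : Matrix (Fin n) (Fin n) ℝ) (x Y Z : E n) :
    bil (ricM (fun _ : E n => b) x) Y Z = 0 := by
  simp [bil_ricM, ricci_const]

lemma scalarCurv_const (b : Matrix (Fin n) (Fin n) ℝ) (x : E n) :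
    scalarCurv (fun _ : E n => b) x = 0 := by
  simp [scalarCurv, ricci_const]

lemma Gam_const (b : Matrix (Fin n) (Fin n) ℝ) (x Y Z : E n) :
    Gam (fun _ : E n => b) x Y Z = 0 := by
  ext k
  simp [Gam_apply, christoffel_const]

lemma hess_const (b : Matrix (Fin n) (Fin n) ℝ) (u : E n → ℝ) (x Y Z : E n) :
    hess (fun _ : E n => b) u x Y Z = fderiv ℝ (fderiv ℝ u) x Y Z := by
  rw [hess_apply, Gam_const, map_zero, sub_zero]

lemma fderiv_fderiv_ee {u : E n → ℝ} {x : E n} (hu : ContDiffAt ℝ 2 u x) (i j : Fin n) :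
    fderiv ℝ (fderiv ℝ u) x (ee i) (ee j) = pderiv i (pderiv j u) x := by
  have hdf : DifferentiableAt ℝ (fderiv ℝ u) x :=
    (hu.fderiv_right (m := 1) (by norm_num)).differentiableAt (by norm_num)
  have e : pderiv j u = fun y => fderiv ℝ u y (ee j) := rfl
  rw [pderiv, e, fderiv_clm_apply hdf (differentiableAt_const _)]
  simp

/-- the coordinate Hessian. -/
lemma hessM_apply (g : MetricField n) {u : E n → ℝ} {x : E n} (hu : ContDiffAt ℝ 2 u x)
    (i j : Fin n) :
    hessM g u x i j = pderiv i (pderiv j u) x - ∑ k, christoffel g x k i j * pderiv k u x := by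
  rw [hessM, Matrix.of_apply, hess_apply, fderiv_fderiv_ee hu, fderiv_eq_sum]
  congr 1
  refine Finset.sum_congr rfl fun k _ => ?_
  congr 1
  rw [Gam_apply, Finset.sum_eq_single i]
  · rw [Finset.sum_eq_single j]
    · simp
    · intro a _ ha
      simp [ha]
    · simp
  · intro a _ ha
    simp [ha]
  · simp

lemma lap_const_metric (hb : b.PosDef) {u : E n → ℝ} {x : E n} (hu : ContDiffAt ℝ 2 u x) :
    laplaceBeltrami (fun _ : E n => b) u x = ∑ i, ∑ j, b⁻¹ i j * pderiv i (pderiv j u) x := by
  rw [lap_eq_traceK (riem_const hb) (mem_univ x) hu, traceK]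
  simp only [hessM_apply _ hu, christoffel_const, zero_mul, Finset.sum_const_zero, sub_zero]
  rfl

lemma lap_one {u : E n → ℝ} {x : E n} (hu : ContDiffAt ℝ 2 u x) :
    laplaceBeltrami (fun _ : E n => (1 : Matrix (Fin n) (Fin n) ℝ)) u x = lap u x := by
  rw [lap_const_metric Matrix.PosDef.one hu, lap]
  simp [Matrix.one_apply]

/-! ### locality -/

variable {g g' : MetricField n} {x : E n}

lemma christoffel_congr (h : g =ᶠ[𝓝 x] g') (k i j : Fin n) :
    christoffel g x k i j = christoffel g' x k i j := by
  have h1 : ∀ l a b : Fin n, pderiv l (fun y => g y a b) x = pderiv l (fun y => g' y a b) x := by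
    intro l a b
    have : (fun y => g y a b) =ᶠ[𝓝 x] fun y => g' y a b := by
      filter_upwards [h] with y hy
      rw [hy]
    rw [pderiv, pderiv, this.fderiv_eq]
  simp only [christoffel, inverseField, h1, h.self_of_nhds]

lemma ricci_congr (h : g =ᶠ[𝓝 x] g') (i j : Fin n) : ricci g x i j = ricci g' x i j := by
  have h1 : ∀ l k a b : Fin n, pderiv l (fun y => christoffel g y k a b) x =
      pderiv l (fun y => christoffel g' y k a b) x := by
    intro l k a b
    have : (fun y => christoffel g y k a b) =ᶠ[𝓝 x] fun y => christoffel g' y k a b := by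
      filter_upwards [h.eventuallyEq_nhds] with y hy using christoffel_congr hy k a b
    rw [pderiv, pderiv, this.fderiv_eq]
  have h2 : pderiv j (fun y => ∑ k, christoffel g y k k i) x =
      pderiv j (fun y => ∑ k, christoffel g' y k k i) x := by
    have : (fun y => ∑ k, christoffel g y k k i) =ᶠ[𝓝 x]
        fun y => ∑ k, christoffel g' y k k i := by
      filter_upwards [h.eventuallyEq_nhds] with y hy
      simp only [christoffel_congr hy]
    rw [pderiv, pderiv, this.fderiv_eq]
  simp only [ricci, h1, h2, christoffel_congr h]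

lemma scalarCurv_congr (h : g =ᶠ[𝓝 x] g') : scalarCurv g x = scalarCurv g' x := by
  simp only [scalarCurv, inverseField, ricci_congr h, h.self_of_nhds]

lemma lap_congr_metric (h : g =ᶠ[𝓝 x] g') (u : E n → ℝ) :
    laplaceBeltrami g u x = laplaceBeltrami g' u x := by
  rw [laplaceBeltrami, laplaceBeltrami, h.self_of_nhds]
  congr 1
  refine Finset.sum_congr rfl fun i _ => ?_
  have : (fun y => Real.sqrt (g y).det * ∑ j, inverseField g y i j * pderiv j u y) =ᶠ[𝓝 x]
      fun y => Real.sqrt (g' y).det * ∑ j, inverseField g' y i j * pderiv j u y := by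
    filter_upwards [h] with y hy
    simp only [inverseField, hy]
  rw [pderiv, pderiv, this.fderiv_eq]

end Crest.Agent.N346.Id

end
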