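import Crest.Agent.R247.Bo3_84
import Crest.Agent.N346.Defs

/-!
Row 346, Part 1 (helper90): the geometric objects of the generalised Jang / conformal system.

Data: a metric field `g`, a positive warping factor `φ` and a function `f` on an open set `U`.
Vector fields are maps `E n → E n`; `grad, gam, hess, cov, divg, trL` are those of
`Crest.Agent.R247.Bo84`, `bil M Y Z = ∑ M i j * Y i * Z j` is `Crest.Agent.R202.Tens.bil`.
-/

set_option autoImplicit false

open scoped ContDiff Topology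
open Crest.GeometryTopology.CoordMetric Crest.MathPhysics.ExteriorData
open Crest.Agent.R202.Tens Crest.Agent.R247.Bo84

noncomputable section

namespace Crest.Agent.N346.Id

variable {n : ℕ}

/-- The endomorphism `Y ↦ M Y` of a matrix (`mat_apply : mat M Y i = ∑ j, M i j * Y j`). -/
def mat (M : Matrix (Fin n) (Fin n) ℝ) : E n →L[ℝ] E n :=
  ∑ i, ∑ j, M i j • ((EuclideanSpace.proj j : E n →L[ℝ] ℝ).smulRight
    (EuclideanSpace.single i (1:ℝ)))

/-- `T` with one index raised by `G`: `(shp G T x Y)^i = G^{ij} T_{jk} Y^k`. -/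
def shp (G T : MetricField n) (x : E n) : E n →L[ℝ] E n := mat ((G x)⁻¹ * T x)

/-- The vector field `G⁻¹ (T(·, W))`, components `G^{ij} T_{jk} W^k`. -/
def tv (G T : MetricField n) (W : E n → E n) (x : E n) : E n := shp G T x (W x)

/-- The Ricci tensor as a matrix field; `Ric(Y, Z) = bil (ricM g x) Y Z`. -/
def ricM (g : MetricField n) : MetricField n := fun x => Matrix.of fun i j => ricci g x i j

/-- The coordinate Hessian `Hess_g f (eᵢ, eⱼ)` as a matrix field. -/
def hessM (g : MetricField n) (f : E n → ℝ) : MetricField n :=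
  fun x => Matrix.of fun i j => hess g f x (EuclideanSpace.single i 1) (EuclideanSpace.single j 1)

/-- `J(W) = ∑ Jᵢ Wⁱ`. -/
def Jw (g K : MetricField n) (x W : E n) : ℝ := ∑ i, momentumDensity g K x i * W i

/-- Standing hypotheses on the data `(g, φ, f)` on the open set `U`. -/
structure Jd (g : MetricField n) (φ f : E n → ℝ) (U : Set (E n)) : Prop where
  riem : IsRiemannianOn g U
  φ_smooth : ContDiffOn ℝ ∞ φ U
  f_smooth : ContDiffOn ℝ ∞ f U
  φ_pos : ∀ x ∈ U, 0 < φ x

/-- A smooth symmetric two-tensor on `U`. -/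
structure SymT (K : MetricField n) (U : Set (E n)) : Prop where
  smooth : ∀ i j, ContDiffOn ℝ ∞ (fun x => K x i j) U
  symm : ∀ x ∈ U, ∀ i j, K x i j = K x j i

/-- `v = log φ`. -/
def lv (φ : E n → ℝ) (x : E n) : ℝ := Real.log (φ x)

/-- `X ⊗ X = φ² df ⊗ df`. -/
def XX (φ f : E n → ℝ) : MetricField n :=
  fun x => Matrix.of fun i j => φ x ^ 2 * pderiv i f x * pderiv j f x

section
variable (g : MetricField n) (φ f : E n → ℝ)

/-- `s = |X|²_g = φ² |df|²_g`. -/
def sq (x : E n) : ℝ := φ x ^ 2 * gam g f f x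

/-- `γ = √(1 + s)`. -/
def gm (x : E n) : ℝ := Real.sqrt (1 + sq g φ f x)

/-- `ℓ = log γ`. -/
def ell (x : E n) : ℝ := Real.log (gm g φ f x)

/-- `p = |w|²_g = s / (1 + s)`. -/
def pp (x : E n) : ℝ := sq g φ f x / (1 + sq g φ f x)

/-- `w = φ ∇f / γ`. -/
def wv (x : E n) : E n := (φ x / gm g φ f x) • grad g f x

/-- `a = w(v)`. -/
def aa (x : E n) : ℝ := fderiv ℝ (lv φ) x (wv g φ f x)

/-- The Jang metric `ḡ = g + φ² df²`. -/
def gb : MetricField n := fun x => g x + XX φ f x

/-- The second fundamental form `h = (φ Hess_g f + dφ ⊗ df + df ⊗ dφ) / γ`. -/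
def hh : MetricField n := fun x => Matrix.of fun i j =>
  (φ x * hessM g f x i j + pderiv i φ x * pderiv j f x + pderiv j φ x * pderiv i f x) / gm g φ f x

/-- `H₀ = tr_ḡ h`. -/
def H0 : E n → ℝ := traceK (gb g φ f) (hh g φ f)

/-- `V = ∇̄ v` (`= ∇v - a w`). -/
def Vv : E n → E n := grad (gb g φ f) (lv φ)

/-- `Q = ḡ⁻¹ h(w, ·)` (the covector `qq` raised by `ḡ`). -/
def Qv : E n → E n := tv (gb g φ f) (hh g φ f) (wv g φ f)

/-- `P = p ∇v - a w`. -/
def Pv (x : E n) : E n := pp g φ f x • grad g (lv φ) x - aa g φ f x • wv g φ f x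

variable (K : MetricField n)

/-- `ZZ = h - K`. -/
def ZZ : MetricField n := fun x => hh g φ f x - K x

/-- `Θ = tr_ḡ (h - K)`; the Jang equation is `Θ = τ f`. -/
def Th : E n → ℝ := traceK (gb g φ f) (ZZ g φ f K)

/-- `q = ḡ⁻¹ (h - K)(w, ·)`. -/
def qv : E n → E n := tv (gb g φ f) (ZZ g φ f K) (wv g φ f)

end

end Crest.Agent.N346.Id

end
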