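import Crest.Agent.N346.Id.Conf

/-!
Row 346, Part 1 (helper90): first order structure of the Jang metric `ḡ = g + φ² df²`
(identities I2): smoothness, inverse, volume, `∇w`, `dℓ`, the connection difference.
-/

set_option autoImplicit false

open scoped ContDiff Topology
open Filter Set
open Crest.GeometryTopology.CoordMetric Crest.MathPhysics.ExteriorData
open Crest.Agent.R202.Tens Crest.Agent.R247.Bo84

noncomputable section

namespace Crest.Agent.N346.Id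

variable {n : ℕ} {g : MetricField n} {φ f : E n → ℝ} {U : Set (E n)} {x : E n}

lemma posDef_of_bil {M : Matrix (Fin n) (Fin n) ℝ} (hs : ∀ i j, M i j = M j i)
    (h : ∀ v : E n, v ≠ 0 → 0 < bil M v v) : M.PosDef := by
  refine Matrix.PosDef.of_dotProduct_mulVec_pos ?_ ?_
  · ext i j
    simp only [Matrix.conjTranspose_apply, star_trivial]
    exact hs j i
  · intro v hv
    have hv' : (WithLp.toLp 2 v : E n) ≠ 0 := by
      intro h0
      apply hv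
      have := congrArg WithLp.ofLp h0
      simpa using this
    have e : star v ⬝ᵥ M.mulVec v = bil M (WithLp.toLp 2 v) (WithLp.toLp 2 v) := by
      rw [bil_apply]
      simp only [dotProduct, Matrix.mulVec, Finset.mul_sum, star_trivial]
      refine Finset.sum_congr rfl fun i _ => Finset.sum_congr rfl fun j _ => by ring
    rw [e]
    exact h _ hv'

lemma bil_XX (φ f : E n → ℝ) (x Y Z : E n) :
    bil (XX φ f x) Y Z = φ x ^ 2 * fderiv ℝ f x Y * fderiv ℝ f x Z := bil_pderiv _ _ _ _ _ _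

lemma bil_hh (g : MetricField n) (φ f : E n → ℝ) (x Y Z : E n) :
    bil (hh g φ f x) Y Z = (φ x * hess g f x Y Z + fderiv ℝ φ x Y * fderiv ℝ f x Z
      + fderiv ℝ φ x Z * fderiv ℝ f x Y) / gm g φ f x := by
  have e : hh g φ f x = (gm g φ f x)⁻¹ • (φ x • hessM g f x
      + (Matrix.of fun i j => 1 * pderiv i φ x * pderiv j f x)
      + (Matrix.of fun i j => 1 * pderiv i f x * pderiv j φ x)) := by
    ext i j
    simp only [hh, Matrix.of_apply, Matrix.smul_apply, Matrix.add_apply, smul_eq_mul]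
    ring
  rw [e, bil_smul, bil_add, bil_add, bil_smul, bil_hessM, bil_pderiv, bil_pderiv]
  ring

namespace Jd

lemma isOpen (hd : Jd g φ f U) : IsOpen U := hd.riem.isOpen

lemma nhds (hd : Jd g φ f U) (hx : x ∈ U) : U ∈ 𝓝 x := hd.isOpen.mem_nhds hx

lemma cφ (hd : Jd g φ f U) (hx : x ∈ U) : ContDiffAt ℝ ∞ φ x :=
  hd.φ_smooth.contDiffAt (hd.nhds hx)

lemma cf (hd : Jd g φ f U) (hx : x ∈ U) : ContDiffAt ℝ ∞ f x :=
  hd.f_smooth.contDiffAt (hd.nhds hx)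

lemma cf2 (hd : Jd g φ f U) (hx : x ∈ U) : ContDiffAt ℝ 2 f x := (hd.cf hx).of_le (by norm_cast)

lemma cφ2 (hd : Jd g φ f U) (hx : x ∈ U) : ContDiffAt ℝ 2 φ x := (hd.cφ hx).of_le (by norm_cast)

lemma dφ (hd : Jd g φ f U) (hx : x ∈ U) : DifferentiableAt ℝ φ x :=
  (hd.cφ hx).differentiableAt (by simp)

lemma sq_nonneg (hd : Jd g φ f U) (hx : x ∈ U) : 0 ≤ sq g φ f x :=
  mul_nonneg (_root_.sq_nonneg _) (gam_self_nonneg hd.riem hx f)

lemma gm_sq (hd : Jd g φ f U) (hx : x ∈ U) : gm g φ f x ^ 2 = 1 + sq g φ f x :=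
  Real.sq_sqrt (by linarith [hd.sq_nonneg hx])

lemma one_le_gm (hd : Jd g φ f U) (hx : x ∈ U) : 1 ≤ gm g φ f x :=
  Real.one_le_sqrt.2 (by linarith [hd.sq_nonneg hx])

lemma gm_pos (hd : Jd g φ f U) (hx : x ∈ U) : 0 < gm g φ f x :=
  one_pos.trans_le (hd.one_le_gm hx)

lemma gm_sq_mul_pp (hd : Jd g φ f U) (hx : x ∈ U) :
    gm g φ f x ^ 2 * pp g φ f x = sq g φ f x := by
  have := hd.sq_nonneg hx
  rw [hd.gm_sq hx, pp]
  field_simp

/-- `γ² (1 - p) = 1`. -/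
lemma gm_sq_mul (hd : Jd g φ f U) (hx : x ∈ U) : gm g φ f x ^ 2 * (1 - pp g φ f x) = 1 := by
  rw [mul_sub, hd.gm_sq_mul_pp hx, hd.gm_sq hx]; ring

lemma one_sub_pp (hd : Jd g φ f U) (hx : x ∈ U) : 1 - pp g φ f x = (gm g φ f x ^ 2)⁻¹ :=
  eq_inv_of_mul_eq_one_right (hd.gm_sq_mul hx)

lemma pp_nonneg (hd : Jd g φ f U) (hx : x ∈ U) : 0 ≤ pp g φ f x :=
  div_nonneg (hd.sq_nonneg hx) (by linarith [hd.sq_nonneg hx])

lemma pp_lt_one (hd : Jd g φ f U) (hx : x ∈ U) : pp g φ f x < 1 := by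
  have := hd.gm_pos hx
  have h2 : 0 < 1 - pp g φ f x := by rw [hd.one_sub_pp hx]; positivity
  linarith

lemma ell_nonneg (hd : Jd g φ f U) (hx : x ∈ U) : 0 ≤ ell g φ f x :=
  Real.log_nonneg (hd.one_le_gm hx)

/-! ### smoothness -/

lemma c_lv (hd : Jd g φ f U) (hx : x ∈ U) : ContDiffAt ℝ ∞ (lv φ) x :=
  (hd.cφ hx).log (hd.φ_pos x hx).ne'

lemma c_sq (hd : Jd g φ f U) (hx : x ∈ U) : ContDiffAt ℝ ∞ (sq g φ f) x :=
  ((hd.cφ hx).pow 2).mul (contDiffAt_gam hd.riem hx (hd.cf hx) (hd.cf hx) (by simp) le_rfl)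

lemma c_gm (hd : Jd g φ f U) (hx : x ∈ U) : ContDiffAt ℝ ∞ (gm g φ f) x :=
  (contDiffAt_const.add (hd.c_sq hx)).sqrt (by linarith [hd.sq_nonneg hx])

lemma c_ell (hd : Jd g φ f U) (hx : x ∈ U) : ContDiffAt ℝ ∞ (ell g φ f) x :=
  (hd.c_gm hx).log (hd.gm_pos hx).ne'

lemma c_pp (hd : Jd g φ f U) (hx : x ∈ U) : ContDiffAt ℝ ∞ (pp g φ f) x :=
  (hd.c_sq hx).div (contDiffAt_const.add (hd.c_sq hx)) (by linarith [hd.sq_nonneg hx])

lemma c_wv (hd : Jd g φ f U) (hx : x ∈ U) : ContDiffAt ℝ ∞ (wv g φ f) x :=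
  ((hd.cφ hx).div (hd.c_gm hx) (hd.gm_pos hx).ne').smul
    (contDiffAt_grad hd.riem hx (hd.cf hx) (by simp) le_rfl)

lemma c_aa (hd : Jd g φ f U) (hx : x ∈ U) : ContDiffAt ℝ ∞ (aa g φ f) x :=
  ((hd.c_lv hx).fderiv_right (m := ∞) (by simp)).clm_apply (hd.c_wv hx)

lemma c_XX (hd : Jd g φ f U) (hx : x ∈ U) (i j : Fin n) :
    ContDiffAt ℝ ∞ (fun y => XX φ f y i j) x :=
  (((hd.cφ hx).pow 2).mul (contDiffAt_pderiv (hd.cf hx) (by simp) i)).mul
    (contDiffAt_pderiv (hd.cf hx) (by simp) j)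

lemma c_hh (hd : Jd g φ f U) (hx : x ∈ U) (i j : Fin n) :
    ContDiffAt ℝ ∞ (fun y => hh g φ f y i j) x :=
  ((((hd.cφ hx).mul (contDiffAt_hessM hd.riem hx (hd.cf hx) i j)).add
    ((contDiffAt_pderiv (hd.cφ hx) (by simp) i).mul (contDiffAt_pderiv (hd.cf hx) (by simp) j))).add
    ((contDiffAt_pderiv (hd.cφ hx) (by simp) j).mul
      (contDiffAt_pderiv (hd.cf hx) (by simp) i))).div (hd.c_gm hx) (hd.gm_pos hx).ne'

lemma hh_symm (hd : Jd g φ f U) (hx : x ∈ U) (Y Z : E n) :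
    bil (hh g φ f x) Y Z = bil (hh g φ f x) Z Y := by
  rw [bil_hh, bil_hh, hess_symm hd.riem hx (hd.cf2 hx)]
  ring

lemma symT_hh (hd : Jd g φ f U) : SymT (hh g φ f) U :=
  ⟨fun i j y hy => (hd.c_hh hy i j).contDiffWithinAt, fun y hy i j => by
    rw [← bil_ee (hh g φ f y) i j, ← bil_ee (hh g φ f y) j i, hd.hh_symm hy]⟩

lemma symT_XX (hd : Jd g φ f U) : SymT (XX φ f) U :=
  ⟨fun i j y hy => (hd.c_XX hy i j).contDiffWithinAt, fun y _ i j => by
    simp only [XX, Matrix.of_apply]; ring⟩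

lemma symT_ZZ (hd : Jd g φ f U) {K : MetricField n} (hK : SymT K U) : SymT (ZZ g φ f K) U :=
  ⟨fun i j => (hd.symT_hh.smooth i j).sub (hK.smooth i j), fun y hy i j => by
    simp only [ZZ, Matrix.sub_apply]
    rw [hd.symT_hh.symm y hy, hK.symm y hy]⟩

/-! ### algebra at a point -/

/-- `g(w, Y) = φ df(Y) / γ`. -/
lemma bil_wv (hd : Jd g φ f U) (hx : x ∈ U) (Y : E n) :
    bil (g x) (wv g φ f x) Y = φ x / gm g φ f x * fderiv ℝ f x Y := by
  rw [wv, map_smul, smul_apply, bil_grad hd.riem hx, smul_eq_mul]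

lemma phi_df (hd : Jd g φ f U) (hx : x ∈ U) (Y : E n) :
    φ x * fderiv ℝ f x Y = gm g φ f x * bil (g x) (wv g φ f x) Y := by
  have := hd.gm_pos hx
  rw [hd.bil_wv hx]
  field_simp

lemma bil_XX' (hd : Jd g φ f U) (hx : x ∈ U) (Y Z : E n) :
    bil (XX φ f x) Y Z =
      gm g φ f x ^ 2 * bil (g x) (wv g φ f x) Y * bil (g x) (wv g φ f x) Z := by
  rw [bil_XX]
  linear_combination (φ x * fderiv ℝ f x Z) * hd.phi_df hx Y
    + (gm g φ f x * bil (g x) (wv g φ f x) Y) * hd.phi_df hx Z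

/-- `|w|²_g = p`. -/
lemma bil_wv_wv (hd : Jd g φ f U) (hx : x ∈ U) :
    bil (g x) (wv g φ f x) (wv g φ f x) = pp g φ f x := by
  have := hd.gm_pos hx
  rw [hd.bil_wv hx, wv, map_smul, ← gam_eq_fderiv_grad, smul_eq_mul, pp, ← hd.gm_sq hx, sq]
  field_simp

lemma bil_gb (hd : Jd g φ f U) (hx : x ∈ U) (Y Z : E n) :
    bil (gb g φ f x) Y Z = bil (g x) Y Z +
      gm g φ f x ^ 2 * bil (g x) (wv g φ f x) Y * bil (g x) (wv g φ f x) Z := by
  rw [gb, bil_add, hd.bil_XX' hx]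

lemma bil_le_gb (hd : Jd g φ f U) (hx : x ∈ U) (Y : E n) :
    bil (g x) Y Y ≤ bil (gb g φ f x) Y Y := by
  rw [hd.bil_gb hx]
  nlinarith [_root_.sq_nonneg (gm g φ f x * bil (g x) (wv g φ f x) Y)]

/-- the Jang metric is Riemannian. -/
theorem riemb (hd : Jd g φ f U) : IsRiemannianOn (gb g φ f) U := by
  refine ⟨hd.isOpen, fun i j => (hd.riem.contDiffOn i j).add (hd.symT_XX.smooth i j),
    fun y hy => posDef_of_bil (fun i j => ?_) fun v hv => ?_⟩
  · simp only [gb, Matrix.add_apply]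
    rw [metric_symm hd.riem hy, hd.symT_XX.symm y hy]
  · exact (bil_pos hd.riem hy hv).trans_le (hd.bil_le_gb hy v)

/-- `ḡ(w, Y) = γ² g(w, Y)`. -/
lemma gb_wv (hd : Jd g φ f U) (hx : x ∈ U) (Y : E n) :
    bil (gb g φ f x) (wv g φ f x) Y = gm g φ f x ^ 2 * bil (g x) (wv g φ f x) Y := by
  rw [hd.bil_gb hx, hd.bil_wv_wv hx]
  linear_combination (-bil (g x) (wv g φ f x) Y) * hd.gm_sq_mul hx

/-- `∇̄ψ = ∇ψ - dψ(w) w`. -/
theorem grad_gb (hd : Jd g φ f U) (hx : x ∈ U) (ψ : E n → ℝ) :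
    grad (gb g φ f) ψ x = grad g ψ x - fderiv ℝ ψ x (wv g φ f x) • wv g φ f x := by
  refine bil_injective hd.riemb hx fun Z => ?_
  rw [bil_grad hd.riemb hx, map_sub, map_smul, sub_apply, smul_apply, hd.gb_wv hx, hd.bil_gb hx,
    bil_grad hd.riem hx, bil_symm hd.riem hx (wv g φ f x) (grad g ψ x), bil_grad hd.riem hx,
    smul_eq_mul]
  ring

theorem gam_gb (hd : Jd g φ f U) (hx : x ∈ U) (u ψ : E n → ℝ) :
    gam (gb g φ f) u ψ x =
      gam g u ψ x - fderiv ℝ u x (wv g φ f x) * fderiv ℝ ψ x (wv g φ f x) := by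
  rw [gam_eq_fderiv_grad, hd.grad_gb hx, map_sub, map_smul, gam_eq_fderiv_grad, smul_eq_mul,
    mul_comm]

/-- `ḡ⁻¹ = g⁻¹ - w ⊗ w`. -/
theorem inverseField_gb (hd : Jd g φ f U) (hx : x ∈ U) (i j : Fin n) :
    inverseField (gb g φ f) x i j = inverseField g x i j - wv g φ f x i * wv g φ f x j := by
  rw [← xi_apply, ← xi_apply, xi, hd.grad_gb hx, fderiv_coord, PiLp.sub_apply, PiLp.smul_apply,
    smul_eq_mul, mul_comm]
  rfl

theorem shp_gb (hd : Jd g φ f U) (hx : x ∈ U) (T : MetricField n) :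
    shp (gb g φ f) T x = shp g T x - (bil (T x) (wv g φ f x)).smulRight (wv g φ f x) := by
  refine shp_eq_of_bil hd.riemb hx fun Y Z => ?_
  rw [sub_apply, ContinuousLinearMap.smulRight_apply, map_sub, map_smul, sub_apply, smul_apply,
    hd.gb_wv hx, hd.bil_gb hx, bil_shp hd.riem hx, bil_shp' hd.riem hx, smul_eq_mul]
  ring

theorem traceK_gb (hd : Jd g φ f U) (hx : x ∈ U) (T : MetricField n) :
    traceK (gb g φ f) T x = traceK g T x - bil (T x) (wv g φ f x) (wv g φ f x) := by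
  rw [traceK_eq hd.riemb hx, traceK_eq hd.riem hx, hd.shp_gb hx, map_sub, trL_smulRight]

/-- `g(w, ḡ⁻¹ T Y) = (1 - p) T(w, Y)`. -/
lemma wv_shp_gb (hd : Jd g φ f U) (hx : x ∈ U) (T : MetricField n) (Y : E n) :
    bil (g x) (wv g φ f x) (shp (gb g φ f) T x Y) =
      (1 - pp g φ f x) * bil (T x) (wv g φ f x) Y := by
  rw [hd.shp_gb hx, sub_apply, map_sub, bil_shp' hd.riem hx, ContinuousLinearMap.smulRight_apply,
    map_smul, hd.bil_wv_wv hx, smul_eq_mul]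
  ring

/-- `√det ḡ = γ √det g`. -/
theorem volDensity_gb (hd : Jd g φ f U) (hx : x ∈ U) :
    volDensity (gb g φ f) x = gm g φ f x * volDensity g x := by
  have e : gb g φ f x = g x + Matrix.replicateCol Unit (fun i => φ x * pderiv i f x) *
      Matrix.replicateRow Unit (fun i => φ x * pderiv i f x) := by
    rw [← Matrix.vecMulVec_eq]
    ext i j
    simp only [gb, XX, Matrix.add_apply, Matrix.of_apply, Matrix.vecMulVec_apply]
    ring
  have hp := det_pos hd.riem hx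
  rw [volDensity, e, Matrix.det_add_replicateCol_mul_replicateRow hp.ne'.isUnit,
    Real.sqrt_mul hp.le, mul_comm, volDensity, gm]
  congr 2
  rw [Matrix.det_unique, Matrix.add_apply, Matrix.one_apply_eq, sq, gam]
  congr 1
  simp only [Matrix.mul_apply, Matrix.replicateRow_apply, Matrix.replicateCol_apply,
    Finset.sum_mul, Finset.mul_sum, inverseField]
  rw [Finset.sum_comm]
  exact Finset.sum_congr rfl fun i _ => Finset.sum_congr rfl fun j _ => by ring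

lemma fderiv_lv (hd : Jd g φ f U) (hx : x ∈ U) (Y : E n) :
    fderiv ℝ (lv φ) x Y = fderiv ℝ φ x Y / φ x := by
  have h1 : fderiv ℝ (lv φ) x = (φ x)⁻¹ • fderiv ℝ φ x :=
    ((hd.dφ hx).hasFDerivAt.log (hd.φ_pos x hx).ne').fderiv
  rw [h1, smul_apply, smul_eq_mul, div_eq_inv_mul]

lemma fderiv_phi (hd : Jd g φ f U) (hx : x ∈ U) (Y : E n) :
    fderiv ℝ φ x Y = φ x * fderiv ℝ (lv φ) x Y := by
  have := hd.φ_pos x hx
  rw [hd.fderiv_lv hx]
  field_simp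

/-- `h = (φ/γ) Hess f + dv ⊗ w♭ + w♭ ⊗ dv`. -/
lemma bil_hh' (hd : Jd g φ f U) (hx : x ∈ U) (Y Z : E n) :
    bil (hh g φ f x) Y Z = φ x / gm g φ f x * hess g f x Y Z
      + fderiv ℝ (lv φ) x Y * bil (g x) (wv g φ f x) Z
      + fderiv ℝ (lv φ) x Z * bil (g x) (wv g φ f x) Y := by
  have := hd.gm_pos hx
  rw [bil_hh, hd.fderiv_phi hx, hd.fderiv_phi hx, hd.bil_wv hx, hd.bil_wv hx]
  field_simp

lemma Vv_eq (hd : Jd g φ f U) (hx : x ∈ U) :
    Vv g φ f x = grad g (lv φ) x - aa g φ f x • wv g φ f x := hd.grad_gb hx _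

lemma gb_Vv (hd : Jd g φ f U) (hx : x ∈ U) (Y : E n) :
    bil (gb g φ f x) (Vv g φ f x) Y = fderiv ℝ (lv φ) x Y := bil_grad hd.riemb hx _ _

lemma bil_Vv (hd : Jd g φ f U) (hx : x ∈ U) (Y : E n) :
    bil (g x) (Vv g φ f x) Y = fderiv ℝ (lv φ) x Y - aa g φ f x * bil (g x) (wv g φ f x) Y := by
  rw [hd.Vv_eq hx, map_sub, map_smul, sub_apply, smul_apply, bil_grad hd.riem hx, smul_eq_mul]

/-- `g(w, V) = (1 - p) a`. -/
lemma wv_Vv (hd : Jd g φ f U) (hx : x ∈ U) :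
    bil (g x) (wv g φ f x) (Vv g φ f x) = (1 - pp g φ f x) * aa g φ f x := by
  rw [bil_symm hd.riem hx, hd.bil_Vv hx, hd.bil_wv_wv hx, ← aa]
  ring

/-- `ḡ(Q, Y) = h(w, Y)`. -/
lemma gb_Qv (hd : Jd g φ f U) (hx : x ∈ U) (Y : E n) :
    bil (gb g φ f x) (Qv g φ f x) Y = bil (hh g φ f x) (wv g φ f x) Y := by
  rw [Qv, tv, bil_shp hd.riemb hx, hd.hh_symm hx]

lemma Pv_eq (hd : Jd g φ f U) (hx : x ∈ U) : Pv g φ f x =
    pp g φ f x • Vv g φ f x - ((1 - pp g φ f x) * aa g φ f x) • wv g φ f x := by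
  rw [Pv, hd.Vv_eq hx]
  module

lemma c_Vv (hd : Jd g φ f U) (hx : x ∈ U) : ContDiffAt ℝ ∞ (Vv g φ f) x :=
  contDiffAt_grad hd.riemb hx (hd.c_lv hx) (by simp) le_rfl

lemma c_H0 (hd : Jd g φ f U) (hx : x ∈ U) : ContDiffAt ℝ ∞ (H0 g φ f) x :=
  contDiffAt_traceK hd.riemb hx le_rfl (hd.c_hh hx)

lemma c_Qv (hd : Jd g φ f U) (hx : x ∈ U) : ContDiffAt ℝ ∞ (Qv g φ f) x :=
  contDiffAt_tv hd.riemb hx le_rfl (hd.c_hh hx) (hd.c_wv hx)

lemma c_Pv (hd : Jd g φ f U) (hx : x ∈ U) : ContDiffAt ℝ ∞ (Pv g φ f) x :=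
  ((hd.c_pp hx).smul (contDiffAt_grad hd.riem hx (hd.c_lv hx) (by simp) le_rfl)).sub
    ((hd.c_aa hx).smul (hd.c_wv hx))

lemma c_Th (hd : Jd g φ f U) {K : MetricField n} (hK : SymT K U) (hx : x ∈ U) :
    ContDiffAt ℝ ∞ (Th g φ f K) x :=
  contDiffAt_traceK hd.riemb hx le_rfl ((hd.symT_ZZ hK).contDiffAt hd.isOpen hx)

lemma c_qv (hd : Jd g φ f U) {K : MetricField n} (hK : SymT K U) (hx : x ∈ U) :
    ContDiffAt ℝ ∞ (qv g φ f K) x :=
  contDiffAt_tv hd.riemb hx le_rfl ((hd.symT_ZZ hK).contDiffAt hd.isOpen hx) (hd.c_wv hx)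

/-! ### first derivatives -/

/-- `dℓ = h(w, ·) - a w♭`. -/
theorem fderiv_ell (hd : Jd g φ f U) (hx : x ∈ U) (Y : E n) :
    fderiv ℝ (ell g φ f) x Y =
      bil (hh g φ f x) (wv g φ f x) Y - aa g φ f x * bil (g x) (wv g φ f x) Y := by
  have hγ := hd.gm_pos hx
  have hs := hd.sq_nonneg hx
  have hgam : DifferentiableAt ℝ (gam g f f) x :=
    (contDiffAt_gam hd.riem hx (hd.cf hx) (hd.cf hx) (m := ∞) (by simp) le_rfl).differentiableAt
      (by simp)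
  have h1 : HasFDerivAt (sq g φ f) (φ x ^ 2 • fderiv ℝ (gam g f f) x +
      gam g f f x • ((2 * φ x) • fderiv ℝ φ x)) x := by
    have dφ2 : HasFDerivAt (fun y => φ y ^ 2) ((2 * φ x) • fderiv ℝ φ x) x := by
      simpa using (hd.dφ hx).hasFDerivAt.pow 2
    exact dφ2.fun_mul hgam.hasFDerivAt
  have h2 : HasFDerivAt (gm g φ f) ((1 / (2 * gm g φ f x)) • (φ x ^ 2 • fderiv ℝ (gam g f f) x +
      gam g f f x • ((2 * φ x) • fderiv ℝ φ x))) x :=
    (h1.const_add 1).sqrt (by linarith)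
  have h3 := (h2.log hγ.ne').fderiv
  change fderiv ℝ (ell g φ f) x = _ at h3
  rw [h3, hd.bil_hh' hx, hd.bil_wv_wv hx, ← aa]
  simp only [smul_apply, add_apply, smul_eq_mul]
  rw [fderiv_gam hd.riem hx (hd.cf2 hx) (hd.cf2 hx), hd.fderiv_phi hx, wv, map_smul, smul_apply,
    hess_symm hd.riem hx (hd.cf2 hx) (grad g f x), pp, ← hd.gm_sq hx, sq, smul_eq_mul]
  field_simp
  ring

lemma fderiv_gm (hd : Jd g φ f U) (hx : x ∈ U) (Y : E n) :
    fderiv ℝ (gm g φ f) x Y = gm g φ f x * fderiv ℝ (ell g φ f) x Y := by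
  have hγ := hd.gm_pos hx
  have h1 : fderiv ℝ (ell g φ f) x = (gm g φ f x)⁻¹ • fderiv ℝ (gm g φ f) x :=
    (((hd.c_gm hx).differentiableAt (by simp)).hasFDerivAt.log hγ.ne').fderiv
  rw [h1, smul_apply, smul_eq_mul]
  field_simp

/-- `∇w = ḡ⁻¹h - V ⊗ w♭`. -/
theorem cov_wv (hd : Jd g φ f U) (hx : x ∈ U) :
    cov g (wv g φ f) x = shp (gb g φ f) (hh g φ f) x
      - (bil (g x) (wv g φ f x)).smulRight (Vv g φ f x) := by
  have hγ := hd.gm_pos hx
  have hγd : DifferentiableAt ℝ (gm g φ f) x := (hd.c_gm hx).differentiableAt (by simp)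
  have h1 : HasFDerivAt (fun y => φ y / gm g φ f y) ((gm g φ f x)⁻¹ • fderiv ℝ φ x
      - (φ x / gm g φ f x ^ 2) • fderiv ℝ (gm g φ f) x) x := by
    have h2 := (hd.dφ hx).hasFDerivAt.fun_mul
      ((hasDerivAt_inv hγ.ne').comp_hasFDerivAt x hγd.hasFDerivAt)
    simp only [div_eq_mul_inv]
    refine h2.congr_fderiv ?_
    ext Y
    simp only [add_apply, sub_apply, smul_apply, smul_eq_mul, Function.comp_apply]
    ring
  have h3 := cov_smul (g := g) h1.differentiableAt (differentiableAt_grad hd.riem hx (hd.cf2 hx))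
  change cov g (wv g φ f) x = _ at h3
  ext1 Y
  refine bil_injective hd.riem hx fun Z => ?_
  rw [h3, h1.fderiv, hd.shp_gb hx]
  simp only [add_apply, sub_apply, smul_apply, ContinuousLinearMap.smulRight_apply, map_add,
    map_sub, map_smul, smul_eq_mul]
  have h4 := bil_hessE hd.riem hx (hd.cf2 hx) Y Z
  rw [hessE] at h4
  rw [h4, bil_grad hd.riem hx, bil_shp hd.riem hx, hd.bil_Vv hx, hd.fderiv_gm hx,
    hd.fderiv_ell hx, hd.hh_symm hx Z Y, hd.bil_hh' hx Y Z, hd.fderiv_phi hx, hd.bil_wv hx Z]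
  field_simp
  ring

/-- `div_g w = H₀ - (1 - p) a`. -/
theorem divg_wv (hd : Jd g φ f U) (hx : x ∈ U) :
    divg g (wv g φ f) x = H0 g φ f x - (1 - pp g φ f x) * aa g φ f x := by
  rw [divg_eq_trL hd.riem hx ((hd.c_wv hx).differentiableAt (by simp)), hd.cov_wv hx, map_sub,
    trL_smulRight, hd.wv_Vv hx, H0, traceK_eq hd.riemb hx]

/-- `dp = 2 (1 - p) dℓ`. -/
theorem fderiv_pp (hd : Jd g φ f U) (hx : x ∈ U) (Y : E n) :
    fderiv ℝ (pp g φ f) x Y = 2 * (1 - pp g φ f x) * fderiv ℝ (ell g φ f) x Y := by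
  have hw : DifferentiableAt ℝ (wv g φ f) x := (hd.c_wv hx).differentiableAt (by simp)
  have e : pp g φ f =ᶠ[𝓝 x] fun y => bil (g y) (wv g φ f y) (wv g φ f y) := by
    filter_upwards [hd.nhds hx] with y hy using (hd.bil_wv_wv hy).symm
  rw [e.fderiv_eq, fderiv_bil hd.riem hx hw hw, bil_symm hd.riem hx (cov g (wv g φ f) x Y),
    hd.cov_wv hx, sub_apply, map_sub, hd.wv_shp_gb hx, ContinuousLinearMap.smulRight_apply,
    map_smul, hd.wv_Vv hx, hd.fderiv_ell hx, smul_eq_mul]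
  ring

/-- `C(A, B) = h(A, B) w - X(A) X(B) V`. -/
theorem Cd_gb (hd : Jd g φ f U) (hx : x ∈ U) (A B : E n) :
    Cd g (gb g φ f) x A B =
      bil (hh g φ f x) A B • wv g φ f x - bil (XX φ f x) A B • Vv g φ f x := by
  have hφ := hd.dφ hx
  have hγ := hd.gm_pos hx
  have hdf : DifferentiableAt ℝ (fderiv ℝ f) x :=
    ((hd.cf2 hx).fderiv_right (m := 1) (by norm_num)).differentiableAt (by norm_num)
  refine bil_injective hd.riemb hx fun Z => ?_
  rw [bil_Cd hd.riem hd.riemb hx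
    (N := fun A B Z => 2 * φ x * fderiv ℝ φ x A * fderiv ℝ f x B * fderiv ℝ f x Z
      + φ x ^ 2 * (hess g f x A B * fderiv ℝ f x Z + fderiv ℝ f x B * hess g f x A Z))]
  · simp only [map_sub, map_smul, sub_apply, smul_apply, smul_eq_mul]
    rw [hd.gb_wv hx, hd.gb_Vv hx, bil_hh, bil_XX, hd.bil_wv hx, hd.fderiv_phi hx Z,
      hess_symm hd.riem hx (hd.cf2 hx) B A, hess_symm hd.riem hx (hd.cf2 hx) Z A,
      hess_symm hd.riem hx (hd.cf2 hx) Z B]
    field_simp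
    ring
  · intro A B Z
    have e1 : (fun y => bil (gb g φ f y) B Z) =
        fun y => bil (g y) B Z + φ y ^ 2 * fderiv ℝ f y B * fderiv ℝ f y Z := by
      ext y
      rw [gb, bil_add, bil_XX]
    have dB : DifferentiableAt ℝ (fun y => fderiv ℝ f y B) x :=
      hdf.clm_apply (differentiableAt_const _)
    have dZ : DifferentiableAt ℝ (fun y => fderiv ℝ f y Z) x :=
      hdf.clm_apply (differentiableAt_const _)
    have dφ2 : HasFDerivAt (fun y => φ y ^ 2) ((2 * φ x) • fderiv ℝ φ x) x := by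
      simpa using hφ.hasFDerivAt.pow 2
    rw [e1, fderiv_fun_add (differentiableAt_bil hd.riem hx (differentiableAt_const B)
      (differentiableAt_const Z)) ((dφ2.differentiableAt.fun_mul dB).fun_mul dZ),
      fderiv_fun_mul (dφ2.differentiableAt.fun_mul dB) dZ, fderiv_fun_mul dφ2.differentiableAt dB,
      dφ2.fderiv]
    simp only [add_apply, smul_apply, smul_eq_mul, fderiv_bil_const hd.riem hx, gb, bil_add,
      bil_XX, fderiv_fderiv_apply (hd.cf2 hx) (differentiableAt_const _) g, cov_const]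
    ring

lemma Cd_gb' (hd : Jd g φ f U) (hx : x ∈ U) (A : E n) :
    Cd g (gb g φ f) x A = (bil (hh g φ f x) A).smulRight (wv g φ f x)
      - (gm g φ f x ^ 2 * bil (g x) (wv g φ f x) A) •
        (bil (g x) (wv g φ f x)).smulRight (Vv g φ f x) := by
  ext1 B
  rw [hd.Cd_gb hx, hd.bil_XX' hx]
  simp only [sub_apply, smul_apply, ContinuousLinearMap.smulRight_apply, smul_smul]

lemma trL_Cd_gb (hd : Jd g φ f U) (hx : x ∈ U) (Z : E n) :
    trL (Cd g (gb g φ f) x Z) = fderiv ℝ (ell g φ f) x Z := by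
  rw [hd.Cd_gb' hx, map_sub, map_smul, trL_smulRight, trL_smulRight, hd.wv_Vv hx,
    hd.fderiv_ell hx, hd.hh_symm hx Z, smul_eq_mul]
  linear_combination (-(aa g φ f x * bil (g x) (wv g φ f x) Z)) * hd.gm_sq_mul hx

/-- `div_ḡ Y = div_g Y + dℓ(Y)`. -/
theorem divg_gb (hd : Jd g φ f U) (hx : x ∈ U) {Y : E n → E n} (hY : DifferentiableAt ℝ Y x) :
    divg (gb g φ f) Y x = divg g Y x + fderiv ℝ (ell g φ f) x (Y x) :=
  divg_two hd.riem hd.riemb hx (hd.trL_Cd_gb hx) hY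

/-- `∇̄w = g⁻¹h - V ⊗ ḡ(w, ·)`. -/
theorem cov_gb_wv (hd : Jd g φ f U) (hx : x ∈ U) :
    cov (gb g φ f) (wv g φ f) x = shp g (hh g φ f) x
      - (bil (gb g φ f x) (wv g φ f x)).smulRight (Vv g φ f x) := by
  rw [cov_two hd.riem hd.riemb hx, hd.cov_wv hx, hd.Cd_gb' hx, hd.shp_gb hx, hd.bil_wv_wv hx]
  ext1 Y
  simp only [add_apply, sub_apply, smul_apply, ContinuousLinearMap.smulRight_apply, hd.gb_wv hx,
    smul_smul]
  have e : gm g φ f x ^ 2 * bil (g x) (wv g φ f x) Y = bil (g x) (wv g φ f x) Y +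
      gm g φ f x ^ 2 * pp g φ f x * bil (g x) (wv g φ f x) Y := by
    linear_combination (bil (g x) (wv g φ f x) Y) * hd.gm_sq_mul hx
  rw [e, add_smul]
  abel

end Jd

end Crest.Agent.N346.Id

end
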