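import Crest.Agent.N346.Id.Jang1

/-!
Row 346, Part 1 (helper90): second order identities of the Jang metric:
`lap_gb`, `lap_gb_f`, `H0_eq`, `hh_eq_gb`, (W) `id_W`, (N0) `id_N0`, (N) `id_N`, `id_E0`,
(GD) `id_GD`.
-/

set_option autoImplicit false

open scoped ContDiff Topology
open Filter Set
open Crest.GeometryTopology.CoordMetric Crest.MathPhysics.ExteriorData
open Crest.Agent.R202.Tens Crest.Agent.R247.Bo84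

noncomputable section

namespace Crest.Agent.N346.Id

variable {n : ℕ} {g : MetricField n} {φ f : E n → ℝ} {U : Set (E n)} {x : E n}

local notation "ḡ" => gb g φ f
local notation "𝓌" => wv g φ f
local notation "𝒽" => hh g φ f
local notation "γ" => gm g φ f
local notation "𝓅" => pp g φ f
local notation "𝒶" => aa g φ f
local notation "ℓ" => ell g φ f
local notation "𝒱" => Vv g φ f
local notation "𝒬" => Qv g φ f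
local notation "𝔓" => Pv g φ f
local notation "ℋ" => H0 g φ f

namespace Jd

lemma traceK_XX (hd : Jd g φ f U) (hx : x ∈ U) : traceK ḡ (XX φ f) x = 𝓅 x := by
  rw [traceK_eq_sum_xi hd.riemb hx, ← hd.bil_wv_wv hx, ← sum_xi_clm hd.riemb hx (𝓌 x)]
  refine Finset.sum_congr rfl fun i _ => ?_
  rw [hd.bil_XX' hx, hd.gb_wv hx]

/-- `tr_ḡ C = H₀ w - p V`. -/
lemma sum_Cd_xi (hd : Jd g φ f U) (hx : x ∈ U) :
    ∑ i, Cd g ḡ x (ee i) (xi ḡ i x) = ℋ x • 𝓌 x - 𝓅 x • 𝒱 x := by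
  simp only [hd.Cd_gb hx, Finset.sum_sub_distrib, ← Finset.sum_smul]
  rw [← traceK_eq_sum_xi hd.riemb hx, ← traceK_eq_sum_xi hd.riemb hx, hd.traceK_XX hx, H0]

theorem hess_gb (hd : Jd g φ f U) (hx : x ∈ U) (ψ : E n → ℝ) (A B : E n) :
    hess ḡ ψ x A B = hess g ψ x A B - bil (𝒽 x) A B * fderiv ℝ ψ x (𝓌 x)
      + bil (XX φ f x) A B * gam ḡ ψ (lv φ) x := by
  rw [hess_two g ḡ, hd.Cd_gb hx, map_sub, map_smul, map_smul, gam_eq_fderiv_grad, smul_eq_mul,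
    smul_eq_mul, Vv]
  ring

/-- `Δ̄ψ = ḡ^{ij} Hess_g ψ_{ij} + p ⟨dψ, dv⟩_ḡ - H₀ w(ψ)`. -/
theorem lap_gb (hd : Jd g φ f U) (hx : x ∈ U) {ψ : E n → ℝ} (hψ : ContDiffAt ℝ 2 ψ x) :
    laplaceBeltrami ḡ ψ x = traceK ḡ (hessM g ψ) x + 𝓅 x * gam ḡ ψ (lv φ) x
      - ℋ x * fderiv ℝ ψ x (𝓌 x) := by
  rw [lap_eq_traceK hd.riemb hx hψ, traceK_eq_sum_xi hd.riemb hx, traceK_eq_sum_xi hd.riemb hx]
  simp only [bil_hessM, hess_two g ḡ, Finset.sum_sub_distrib]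
  rw [← map_sum, hd.sum_Cd_xi hx, map_sub, map_smul, map_smul, gam_eq_fderiv_grad, smul_eq_mul,
    smul_eq_mul, Vv]
  ring

/-- `H₀ = (φ/γ) ḡ^{ij} Hess_g f_{ij} + 2 (1 - p) a`. -/
theorem H0_eq (hd : Jd g φ f U) (hx : x ∈ U) :
    ℋ x = φ x / γ x * traceK ḡ (hessM g f) x + 2 * (1 - 𝓅 x) * 𝒶 x := by
  rw [H0, traceK_eq_sum_xi hd.riemb hx, traceK_eq_sum_xi hd.riemb hx]
  have e1 : ∑ i, fderiv ℝ (lv φ) x (ee i) * bil (g x) (𝓌 x) (xi ḡ i x) = (1 - 𝓅 x) * 𝒶 x := by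
    rw [← hd.wv_Vv hx, ← sum_xi_clm hd.riemb hx (𝒱 x)]
    simp only [hd.gb_Vv hx]
  have e2 : ∑ i, fderiv ℝ (lv φ) x (xi ḡ i x) * bil (g x) (𝓌 x) (ee i) = (1 - 𝓅 x) * 𝒶 x := by
    rw [aa, ← sum_xi_clm hd.riemb hx (𝓌 x), Finset.mul_sum]
    refine Finset.sum_congr rfl fun i _ => ?_
    rw [hd.gb_wv hx]
    linear_combination
      (-(fderiv ℝ (lv φ) x (xi ḡ i x) * bil (g x) (𝓌 x) (ee i))) * hd.gm_sq_mul hx
  simp only [hd.bil_hh' hx, Finset.sum_add_distrib, ← Finset.mul_sum, e1, e2, bil_hessM]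
  ring

lemma df_wv (hd : Jd g φ f U) (hx : x ∈ U) : φ x * fderiv ℝ f x (𝓌 x) = γ x * 𝓅 x := by
  rw [hd.phi_df hx, hd.bil_wv_wv hx]

lemma gam_gb_f_lv (hd : Jd g φ f U) (hx : x ∈ U) :
    φ x * gam ḡ f (lv φ) x = γ x * ((1 - 𝓅 x) * 𝒶 x) := by
  rw [gam_eq_fderiv_grad, hd.phi_df hx, ← hd.wv_Vv hx, Vv]

/-- `|X|²_ḡ = p`. -/
lemma gam_gb_f_f (hd : Jd g φ f U) (hx : x ∈ U) : φ x ^ 2 * gam ḡ f f x = 𝓅 x := by
  rw [hd.gam_gb hx, mul_sub, ← sq, ← hd.gm_sq_mul_pp hx]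
  linear_combination (-(φ x * fderiv ℝ f x (𝓌 x) + γ x * 𝓅 x)) * hd.df_wv hx
    + 𝓅 x * hd.gm_sq_mul hx

/-- `Δ̄f = (H₀ - (2 - p) a) / (φ γ)`. -/
theorem lap_gb_f (hd : Jd g φ f U) (hx : x ∈ U) :
    laplaceBeltrami ḡ f x = (ℋ x - (2 - 𝓅 x) * 𝒶 x) / (φ x * γ x) := by
  have hγ := hd.gm_pos hx
  have hφ := hd.φ_pos x hx
  have h1 := hd.H0_eq hx
  have h2 := hd.df_wv hx
  have h3 := hd.gam_gb_f_lv hx
  have h4 := hd.gm_sq_mul hx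
  have h5 : φ x * traceK ḡ (hessM g f) x = γ x * (ℋ x - 2 * (1 - 𝓅 x) * 𝒶 x) := by
    rw [h1]; field_simp; ring
  rw [hd.lap_gb hx (hd.cf2 hx), eq_div_iff (by positivity)]
  linear_combination γ x * h5 + (γ x * 𝓅 x) * h3 - (γ x * ℋ x) * h2
    + (ℋ x - (2 - 𝓅 x) * 𝒶 x) * h4

/-- `h` in terms of `ḡ`: `h = γ (φ Hess_ḡ f + dφ ⊗ df + df ⊗ dφ - ⟨dφ, df⟩_ḡ X ⊗ X)`. -/
theorem hh_eq_gb (hd : Jd g φ f U) (hx : x ∈ U) (A B : E n) :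
    bil (𝒽 x) A B = γ x * (φ x * hess ḡ f x A B + fderiv ℝ φ x A * fderiv ℝ f x B
      + fderiv ℝ φ x B * fderiv ℝ f x A - gam ḡ f φ x * bil (XX φ f x) A B) := by
  have hγ := hd.gm_pos hx
  have h1 := bil_hh g φ f x A B
  rw [eq_div_iff hγ.ne'] at h1
  have h2 : gam ḡ f φ x = φ x * gam ḡ f (lv φ) x := by
    rw [gam_eq_fderiv_grad' hd.riemb hx, gam_eq_fderiv_grad' hd.riemb hx, hd.fderiv_phi hx]
  rw [hd.hess_gb hx, h2]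
  linear_combination (γ x) * h1 + (γ x * bil (𝒽 x) A B) * hd.df_wv hx
    - bil (𝒽 x) A B * hd.gm_sq_mul hx

/-- `∇̄ℓ = Q - (1 - p) a w`. -/
theorem grad_gb_ell (hd : Jd g φ f U) (hx : x ∈ U) :
    grad ḡ ℓ x = 𝒬 x - ((1 - 𝓅 x) * 𝒶 x) • 𝓌 x := by
  refine bil_injective hd.riemb hx fun Z => ?_
  rw [bil_grad hd.riemb hx, hd.fderiv_ell hx, map_sub, map_smul, sub_apply, smul_apply,
    hd.gb_Qv hx, hd.gb_wv hx, smul_eq_mul]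
  linear_combination (𝒶 x * bil (g x) (𝓌 x) Z) * hd.gm_sq_mul hx

/-- `∇_w w = Q - p V`. -/
theorem cov_wv_wv (hd : Jd g φ f U) (hx : x ∈ U) : cov g 𝓌 x (𝓌 x) = 𝒬 x - 𝓅 x • 𝒱 x := by
  rw [hd.cov_wv hx, sub_apply, ContinuousLinearMap.smulRight_apply, hd.bil_wv_wv hx]
  rfl

/-- `∇_w w = ∇̄ℓ - P`. -/
theorem cov_wv_wv' (hd : Jd g φ f U) (hx : x ∈ U) : cov g 𝓌 x (𝓌 x) = grad ḡ ℓ x - 𝔓 x := by
  rw [hd.cov_wv_wv hx, hd.grad_gb_ell hx, hd.Pv_eq hx]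
  abel

/-- (N0) -/
theorem id_N0 (hd : Jd g φ f U) (hx : x ∈ U) :
    𝒬 x - 𝔓 x = cov g 𝓌 x (𝓌 x) - divg g 𝓌 x • 𝓌 x + ℋ x • 𝓌 x := by
  rw [hd.cov_wv_wv hx, hd.divg_wv hx, hd.Pv_eq hx]
  module

lemma wv_Qv (hd : Jd g φ f U) (hx : x ∈ U) :
    bil (g x) (𝓌 x) (𝒬 x) = (1 - 𝓅 x) * bil (𝒽 x) (𝓌 x) (𝓌 x) := hd.wv_shp_gb hx _ _

/-- (W) -/
theorem id_W (hd : Jd g φ f U) (hx : x ∈ U) :
    scalarCurv ḡ x + divg ḡ (fun y => 𝓅 y • 𝒱 y + grad ḡ ℓ y) x =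
      bil (ḡ x) (𝒬 x) (𝒬 x) - 𝓅 x * bil (ḡ x) (𝒬 x) (𝒱 x) + scalarCurv g x
        - bil (ricM g x) (𝓌 x) (𝓌 x) + ℋ x ^ 2 - (1 - 𝓅 x) * ℋ x * 𝒶 x
        + fderiv ℝ ℋ x (𝓌 x) := by
  have hl2 : ContDiffAt ℝ 2 ℓ x := (hd.c_ell hx).of_le (by norm_cast)
  have dw : DifferentiableAt ℝ 𝓌 x := (hd.c_wv hx).differentiableAt (by simp)
  have dH : DifferentiableAt ℝ ℋ x := (hd.c_H0 hx).differentiableAt (by simp)
  have dpV : DifferentiableAt ℝ (fun y => 𝓅 y • 𝒱 y) x :=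
    ((hd.c_pp hx).differentiableAt (by simp)).fun_smul ((hd.c_Vv hx).differentiableAt (by simp))
  have h1 := scalar_two hd.riem hd.riemb hx hl2 fun y hy => hd.trL_Cd_gb hy
  have e1 : (fun y => ∑ i, Cd g ḡ y (ee i) (xi ḡ i y)) =ᶠ[𝓝 x]
      fun y => ℋ y • 𝓌 y - 𝓅 y • 𝒱 y := by
    filter_upwards [hd.nhds hx] with y hy using hd.sum_Cd_xi hy
  have e2 : ∀ A B : E n, trL ((Cd g ḡ x A).comp (Cd g ḡ x B)) =
      bil (ḡ x) (𝒬 x) A * bil (𝒽 x) (𝓌 x) B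
      - 𝓅 x * (bil (ḡ x) (𝓌 x) A * bil (𝒽 x) (𝒱 x) B)
      - 𝓅 x * (bil (ḡ x) (shp ḡ 𝒽 x (𝒱 x)) A * bil (ḡ x) (𝓌 x) B)
      + ((1 - 𝓅 x) * 𝒶 x) ^ 2 * (bil (ḡ x) (𝓌 x) A * bil (ḡ x) (𝓌 x) B) := by
    intro A B
    rw [hd.Cd_gb' hx, hd.Cd_gb' hx]
    simp only [ContinuousLinearMap.comp_sub, ContinuousLinearMap.sub_comp,
      ContinuousLinearMap.comp_smul, ContinuousLinearMap.smul_comp, map_sub, map_smul,
      trL_comp_smulRight, smul_eq_mul, ContinuousLinearMap.smulRight_apply, hd.bil_wv_wv hx,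
      hd.wv_Vv hx, hd.gb_wv hx, hd.gb_Qv hx, bil_shp hd.riemb hx]
    rw [hd.hh_symm hx A (𝓌 x), hd.hh_symm hx B (𝓌 x), hd.hh_symm hx B (𝒱 x)]
    ring
  simp only [e2, Finset.sum_add_distrib, Finset.sum_sub_distrib, ← Finset.mul_sum,
    sum_xi_clm hd.riemb hx] at h1
  rw [divg_congr e1, divg_sub hd.riemb hx (dH.fun_smul dw) dpV, divg_smul hd.riemb hx dH dw,
    hd.sum_Cd_xi hx, hd.divg_gb hx dw, hd.divg_wv hx, hd.traceK_gb hx, ← scalarCurv_eq_traceK,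
    bil_shp' hd.riemb hx, hd.gb_wv hx, hd.bil_wv_wv hx] at h1
  simp only [map_sub, map_smul, smul_eq_mul, hd.fderiv_ell hx, hd.bil_wv_wv hx, hd.wv_Vv hx] at h1
  rw [divg_add hd.riemb hx dpV (differentiableAt_grad hd.riemb hx hl2), divg_grad, h1,
    hd.gb_Qv hx, hd.gb_Qv hx, hd.hh_symm hx (𝒱 x) (𝓌 x)]
  linear_combination (𝓅 x * (1 - 𝓅 x) * 𝒶 x ^ 2) * hd.gm_sq_mul hx

lemma normSqK_hh (hd : Jd g φ f U) (hx : x ∈ U) :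
    normSqK ḡ 𝒽 x = trL ((shp ḡ 𝒽 x).comp (shp ḡ 𝒽 x)) :=
  normSqK_eq hd.riemb hx (hd.symT_hh.symm x hx)

/-- `tr (∇w ∘ ∇w) = |h|²_ḡ - 2 (1 - p) ⟨qq, dv⟩ + (1 - p)² a²`. -/
lemma trL_cov_sq (hd : Jd g φ f U) (hx : x ∈ U) :
    trL ((cov g 𝓌 x).comp (cov g 𝓌 x)) = normSqK ḡ 𝒽 x
      - 2 * (1 - 𝓅 x) * bil (ḡ x) (𝒬 x) (𝒱 x) + ((1 - 𝓅 x) * 𝒶 x) ^ 2 := by
  rw [hd.cov_wv hx, hd.normSqK_hh hx, hd.gb_Qv hx]
  simp only [ContinuousLinearMap.comp_sub, ContinuousLinearMap.sub_comp, map_sub,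
    trL_comp_smulRight, trL_smulRight_comp, ContinuousLinearMap.smulRight_apply, map_smul,
    hd.wv_shp_gb hx, hd.wv_Vv hx, smul_eq_mul]
  ring

/-- (N) -/
theorem id_N (hd : Jd g φ f U) (hx : x ∈ U) :
    divg ḡ (fun y => 𝒬 y - 𝔓 y) x = normSqK ḡ 𝒽 x + bil (ḡ x) (𝒬 x) (𝒬 x)
      - (2 - 𝓅 x) * bil (ḡ x) (𝒬 x) (𝒱 x) + bil (ricM g x) (𝓌 x) (𝓌 x)
      + (1 - 𝓅 x) * ℋ x * 𝒶 x + fderiv ℝ ℋ x (𝓌 x) := by
  have hw2 : ContDiffAt ℝ 2 𝓌 x := (hd.c_wv hx).of_le (by norm_cast)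
  have dw : DifferentiableAt ℝ 𝓌 x := hw2.differentiableAt (by norm_num)
  have dH : DifferentiableAt ℝ ℋ x := (hd.c_H0 hx).differentiableAt (by simp)
  have dQ : DifferentiableAt ℝ 𝒬 x := (hd.c_Qv hx).differentiableAt (by simp)
  have dP : DifferentiableAt ℝ 𝔓 x := (hd.c_Pv hx).differentiableAt (by simp)
  have dc : DifferentiableAt ℝ (fun y => cov g 𝓌 y (𝓌 y)) x :=
    ((contDiffAt_cov hd.riem hx (m := 1) hw2 (by norm_num) (by simp)).differentiableAt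
      (by norm_num)).clm_apply dw
  have dd : DifferentiableAt ℝ (divg g 𝓌) x :=
    (contDiffAt_divg hd.riem hx (m := 1) hw2 (by norm_num) (by norm_cast)).differentiableAt
      (by norm_num)
  have e1 : (fun y => 𝒬 y - 𝔓 y) =ᶠ[𝓝 x]
      fun y => cov g 𝓌 y (𝓌 y) - divg g 𝓌 y • 𝓌 y + ℋ y • 𝓌 y := by
    filter_upwards [hd.nhds hx] with y hy using hd.id_N0 hy
  rw [hd.divg_gb hx (dQ.fun_sub dP), divg_congr e1,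
    divg_add hd.riem hx (dc.fun_sub (dd.fun_smul dw)) (dH.fun_smul dw),
    divg_sub hd.riem hx dc (dd.fun_smul dw), divg_smul hd.riem hx dd dw,
    divg_smul hd.riem hx dH dw, divg_cov hd.riem hx hw2 dw, hd.trL_cov_sq hx, hd.divg_wv hx,
    hd.Pv_eq hx]
  simp only [map_sub, map_smul, smul_eq_mul, hd.fderiv_ell hx, hd.bil_wv_wv hx, hd.wv_Vv hx,
    hd.wv_Qv hx, hd.gb_Qv hx]
  ring

/-- (E) for `K = 0`. -/
theorem id_E0 (hd : Jd g φ f U) (hx : x ∈ U) :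
    scalarCurv ḡ x + 2 * divg ḡ 𝒬 x = scalarCurv g x + normSqK ḡ 𝒽 x
      + 2 * bil (ḡ x) (𝒬 x) (𝒬 x) - 2 * bil (ḡ x) (𝒬 x) (𝒱 x) + ℋ x ^ 2
      + 2 * fderiv ℝ ℋ x (𝓌 x) := by
  have dQ : DifferentiableAt ℝ 𝒬 x := (hd.c_Qv hx).differentiableAt (by simp)
  have dP : DifferentiableAt ℝ 𝔓 x := (hd.c_Pv hx).differentiableAt (by simp)
  have h1 := hd.id_W hx
  have h2 := hd.id_N hx
  have e1 : (fun y => 𝓅 y • 𝒱 y + grad ḡ ℓ y) =ᶠ[𝓝 x] fun y => 𝒬 y + 𝔓 y := by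
    filter_upwards [hd.nhds hx] with y hy
    rw [hd.grad_gb_ell hy, hd.Pv_eq hy]
    abel
  rw [divg_congr e1, divg_add hd.riemb hx dQ dP] at h1
  rw [divg_sub hd.riemb hx dQ dP] at h2
  linarith

/-- (GD) -/
theorem id_GD (hd : Jd g φ f U) (hx : x ∈ U) :
    scalarCurv ḡ x + 2 * divg ḡ 𝔓 x = scalarCurv g x - 2 * bil (ricM g x) (𝓌 x) (𝓌 x)
      + ℋ x ^ 2 - normSqK ḡ 𝒽 x
      + 2 * (1 - 𝓅 x) * (bil (ḡ x) (𝒬 x) (𝒱 x) - ℋ x * 𝒶 x) := by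
  have dQ : DifferentiableAt ℝ 𝒬 x := (hd.c_Qv hx).differentiableAt (by simp)
  have dP : DifferentiableAt ℝ 𝔓 x := (hd.c_Pv hx).differentiableAt (by simp)
  have h1 := hd.id_E0 hx
  have h2 := hd.id_N hx
  rw [divg_sub hd.riemb hx dQ dP] at h2
  linarith

end Jd

end Crest.Agent.N346.Id

end
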