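import Crest.Agent.N346.Id.Defs

/-!
Row 346, Part 1 (helper90): linear algebra and smoothness for `mat`, `shp`, `tv`, traces.
-/

set_option autoImplicit false

open scoped ContDiff Topology
open Filter Set
open Crest.GeometryTopology.CoordMetric Crest.MathPhysics.ExteriorData
open Crest.Agent.R202.Tens Crest.Agent.R247.Bo84

noncomputable section

namespace Crest.Agent.N346.Id

variable {n : ℕ}

/-- the standard basis vector -/
abbrev ee (i : Fin n) : E n := EuclideanSpace.single i (1:ℝ)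

lemma mat_apply (M : Matrix (Fin n) (Fin n) ℝ) (Y : E n) (i : Fin n) :
    mat M Y i = ∑ j, M i j * Y j := by
  simp only [mat, sum_apply, smul_apply,
    ContinuousLinearMap.smulRight_apply, PiLp.smul_apply, smul_eq_mul, WithLp.ofLp_sum,
    Finset.sum_apply, prj_apply, PiLp.single_apply]
  rw [Finset.sum_eq_single i]
  · simp
  · intro b _ hb
    simp [hb.symm]
  · simp

lemma mat_ee (M : Matrix (Fin n) (Fin n) ℝ) (i j : Fin n) : mat M (ee j) i = M i j := by
  rw [mat_apply, Finset.sum_eq_single j]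
  · simp
  · intro b _ hb
    simp [hb]
  · simp

lemma bil_ee (M : Matrix (Fin n) (Fin n) ℝ) (i j : Fin n) : bil M (ee i) (ee j) = M i j := by
  rw [bil_apply, Finset.sum_eq_single i]
  · rw [Finset.sum_eq_single j]
    · simp
    · intro b _ hb
      simp [hb]
    · simp
  · intro b _ hb
    simp [hb]
  · simp

lemma bil_eq_mat (M : Matrix (Fin n) (Fin n) ℝ) (Y Z : E n) :
    bil M Y Z = ∑ i, Y i * mat M Z i := by
  rw [bil_apply]
  refine Finset.sum_congr rfl fun i _ => ?_
  rw [mat_apply, Finset.mul_sum]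
  exact Finset.sum_congr rfl fun j _ => by ring

lemma mat_mul (M N : Matrix (Fin n) (Fin n) ℝ) (Y : E n) : mat (M * N) Y = mat M (mat N Y) := by
  ext i
  simp only [mat_apply, Matrix.mul_apply, Finset.sum_mul, Finset.mul_sum]
  rw [Finset.sum_comm]
  exact Finset.sum_congr rfl fun j _ => Finset.sum_congr rfl fun k _ => by ring

lemma mat_one (Y : E n) : mat (1 : Matrix (Fin n) (Fin n) ℝ) Y = Y := by
  ext i
  simp [mat_apply, Matrix.one_apply]

lemma mat_add (M N : Matrix (Fin n) (Fin n) ℝ) : mat (M + N) = mat M + mat N := by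
  ext Y i
  simp [mat_apply, add_mul, Finset.sum_add_distrib]

lemma mat_sub (M N : Matrix (Fin n) (Fin n) ℝ) : mat (M - N) = mat M - mat N := by
  ext Y i
  simp [mat_apply, sub_mul, Finset.sum_sub_distrib]

lemma mat_smul (c : ℝ) (M : Matrix (Fin n) (Fin n) ℝ) : mat (c • M) = c • mat M := by
  ext Y i
  simp [mat_apply, Finset.mul_sum, mul_assoc]

lemma bil_add (M N : Matrix (Fin n) (Fin n) ℝ) (Y Z : E n) :
    bil (M + N) Y Z = bil M Y Z + bil N Y Z := by
  simp [bil_apply, add_mul, Finset.sum_add_distrib]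

lemma bil_sub (M N : Matrix (Fin n) (Fin n) ℝ) (Y Z : E n) :
    bil (M - N) Y Z = bil M Y Z - bil N Y Z := by
  simp [bil_apply, sub_mul, Finset.sum_sub_distrib]

lemma bil_smul (c : ℝ) (M : Matrix (Fin n) (Fin n) ℝ) (Y Z : E n) :
    bil (c • M) Y Z = c * bil M Y Z := by
  simp [bil_apply, Finset.mul_sum, mul_assoc]

lemma bil_symm_of {M : Matrix (Fin n) (Fin n) ℝ} (h : ∀ i j, M i j = M j i) (Y Z : E n) :
    bil M Y Z = bil M Z Y := by
  rw [bil_apply, bil_apply, Finset.sum_comm]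
  refine Finset.sum_congr rfl fun i _ => Finset.sum_congr rfl fun j _ => ?_
  rw [h j i]; ring

/-- a continuous bilinear form is `bil` of its matrix. -/
lemma bil_of (B : E n →L[ℝ] E n →L[ℝ] ℝ) (Y Z : E n) :
    bil (Matrix.of fun i j => B (ee i) (ee j)) Y Z = B Y Z := by
  rw [bil_apply]
  conv_rhs => rw [eq_sum_single Y, eq_sum_single Z]
  simp only [map_sum, sum_apply, map_smul, smul_apply,
    smul_eq_mul, Finset.mul_sum, Matrix.of_apply]
  rw [Finset.sum_comm]
  exact Finset.sum_congr rfl fun i _ => Finset.sum_congr rfl fun j _ => by ring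

lemma bil_hessM (g : MetricField n) (f : E n → ℝ) (x Y Z : E n) :
    bil (hessM g f x) Y Z = hess g f x Y Z := bil_of _ _ _

lemma bil_ricM (g : MetricField n) (x Y Z : E n) :
    bil (ricM g x) Y Z = ∑ i, ∑ j, ricci g x i j * Y i * Z j := bil_apply _ _ _

/-- a rank one matrix of two differentials. -/
lemma bil_pderiv (c : ℝ) (u v : E n → ℝ) (x Y Z : E n) :
    bil (Matrix.of fun i j => c * pderiv i u x * pderiv j v x) Y Z =
      c * fderiv ℝ u x Y * fderiv ℝ v x Z := by
  rw [bil_apply, fderiv_eq_sum, fderiv_eq_sum, mul_assoc, Finset.sum_mul_sum, Finset.mul_sum]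
  refine Finset.sum_congr rfl fun i _ => ?_
  rw [Finset.mul_sum]
  exact Finset.sum_congr rfl fun j _ => by rw [Matrix.of_apply]; ring

lemma clm_eq_sum (α : E n →L[ℝ] ℝ) (Y : E n) : α Y = ∑ i, Y i * α (ee i) := by
  conv_lhs => rw [eq_sum_single Y]
  simp only [map_sum, map_smul, smul_eq_mul]

/-! ### traces -/

lemma trL_mat (M : Matrix (Fin n) (Fin n) ℝ) : trL (mat M) = ∑ i, M i i := by
  rw [trL_apply]
  exact Finset.sum_congr rfl fun i _ => mat_ee M i i

lemma trL_smulRight (α : E n →L[ℝ] ℝ) (v : E n) : trL (α.smulRight v) = α v := by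
  rw [trL_apply, clm_eq_sum α v]
  refine Finset.sum_congr rfl fun i _ => ?_
  simp only [ContinuousLinearMap.smulRight_apply, PiLp.smul_apply, smul_eq_mul]
  ring

lemma comp_smulRight (T : E n →L[ℝ] E n) (α : E n →L[ℝ] ℝ) (v : E n) :
    T.comp (α.smulRight v) = α.smulRight (T v) := by
  ext Y : 1
  simp

lemma smulRight_comp (T : E n →L[ℝ] E n) (α : E n →L[ℝ] ℝ) (v : E n) :
    (α.smulRight v).comp T = (α.comp T).smulRight v := by
  ext Y : 1
  simp

lemma trL_comp_smulRight (T : E n →L[ℝ] E n) (α : E n →L[ℝ] ℝ) (v : E n) :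
    trL (T.comp (α.smulRight v)) = α (T v) := by
  rw [comp_smulRight, trL_smulRight]

lemma trL_smulRight_comp (T : E n →L[ℝ] E n) (α : E n →L[ℝ] ℝ) (v : E n) :
    trL ((α.smulRight v).comp T) = α (T v) := by
  rw [smulRight_comp, trL_smulRight]; rfl

lemma trL_id : trL (ContinuousLinearMap.id ℝ (E n)) = n := by
  rw [trL_apply]
  simp

section Riem

variable {g T : MetricField n} {U : Set (E n)} {x : E n}

lemma mul_shp (hg : IsRiemannianOn g U) (hx : x ∈ U) (T : MetricField n) (Y : E n) :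
    mat (g x) (shp g T x Y) = mat (T x) Y := by
  rw [shp, ← mat_mul, ← Matrix.mul_assoc, Matrix.mul_nonsing_inv _ (det_pos hg hx).ne'.isUnit,
    Matrix.one_mul]

/-- `g(Z, g⁻¹ T Y) = T(Z, Y)`. -/
lemma bil_shp' (hg : IsRiemannianOn g U) (hx : x ∈ U) (T : MetricField n) (Y Z : E n) :
    bil (g x) Z (shp g T x Y) = bil (T x) Z Y := by
  rw [bil_eq_mat, mul_shp hg hx, ← bil_eq_mat]

/-- `g(g⁻¹ T Y, Z) = T(Z, Y)`. -/
lemma bil_shp (hg : IsRiemannianOn g U) (hx : x ∈ U) (T : MetricField n) (Y Z : E n) :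
    bil (g x) (shp g T x Y) Z = bil (T x) Z Y := by
  rw [bil_symm hg hx, bil_shp' hg hx]

lemma shp_eq_of_bil (hg : IsRiemannianOn g U) (hx : x ∈ U) {T : MetricField n}
    {A : E n →L[ℝ] E n} (h : ∀ Y Z, bil (g x) (A Y) Z = bil (T x) Z Y) : shp g T x = A := by
  ext Y : 1
  refine bil_injective hg hx fun Z => ?_
  rw [bil_shp hg hx, h]

lemma shp_add (G S T : MetricField n) (x : E n) :
    shp G (fun y => S y + T y) x = shp G S x + shp G T x := by
  rw [shp, shp, shp, Matrix.mul_add, mat_add]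

lemma shp_sub (G S T : MetricField n) (x : E n) :
    shp G (fun y => S y - T y) x = shp G S x - shp G T x := by
  rw [shp, shp, shp, Matrix.mul_sub, mat_sub]

lemma shp_smul (G T : MetricField n) (c : E n → ℝ) (x : E n) :
    shp G (fun y => c y • T y) x = c x • shp G T x := by
  rw [shp, shp, Matrix.mul_smul, mat_smul]

lemma shp_self (hg : IsRiemannianOn g U) (hx : x ∈ U) :
    shp g g x = ContinuousLinearMap.id ℝ (E n) :=
  shp_eq_of_bil hg hx fun Y Z => bil_symm hg hx Y Z

lemma traceK_eq (hg : IsRiemannianOn g U) (hx : x ∈ U) (T : MetricField n) :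
    traceK g T x = trL (shp g T x) := by
  rw [shp, trL_mat, traceK]
  simp only [Matrix.mul_apply]
  rw [Finset.sum_comm]
  refine Finset.sum_congr rfl fun i _ => Finset.sum_congr rfl fun j _ => ?_
  rw [inv_symm hg hx]; rfl

lemma normSqK_eq (hg : IsRiemannianOn g U) (hx : x ∈ U) {T : MetricField n}
    (hT : ∀ i j, T x i j = T x j i) :
    normSqK g T x = trL ((shp g T x).comp (shp g T x)) := by
  have h1 : (shp g T x).comp (shp g T x) = mat ((g x)⁻¹ * T x * ((g x)⁻¹ * T x)) := by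
    ext Y : 1
    rw [mat_mul]; rfl
  rw [h1, trL_mat, normSqK]
  simp only [Matrix.mul_apply, Finset.sum_mul, Finset.mul_sum]
  -- LHS ∑ i j a b, RHS ∑ a b' i j'
  rw [Finset.sum_comm]
  conv_lhs => enter [2, j]; rw [Finset.sum_comm]
  rw [Finset.sum_comm]
  refine Finset.sum_congr rfl fun a _ => ?_
  refine Finset.sum_congr rfl fun j _ => ?_
  rw [Finset.sum_comm]
  refine Finset.sum_congr rfl fun b _ => ?_
  refine Finset.sum_congr rfl fun i _ => ?_
  have e1 := inv_symm hg hx i a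
  simp only [inverseField] at e1 ⊢
  rw [e1, hT a b]
  ring

lemma scalarCurv_eq_traceK (g : MetricField n) (x : E n) :
    scalarCurv g x = traceK g (ricM g) x := rfl

lemma traceK_add (G S T : MetricField n) (x : E n) :
    traceK G (fun y => S y + T y) x = traceK G S x + traceK G T x := by
  simp [traceK, mul_add, Finset.sum_add_distrib]

lemma traceK_sub (G S T : MetricField n) (x : E n) :
    traceK G (fun y => S y - T y) x = traceK G S x - traceK G T x := by
  simp [traceK, mul_sub, Finset.sum_sub_distrib]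

/-- the trace of an endomorphism through the metric. -/
lemma trL_eq_sum_inv (hg : IsRiemannianOn g U) (hx : x ∈ U) (A : E n →L[ℝ] E n) :
    trL A = ∑ j, ∑ k, inverseField g x j k * bil (g x) (A (ee k)) (ee j) := by
  have h1 : shp g (fun _ => Matrix.of fun j k => bil (g x) (A (ee k)) (ee j)) x = A := by
    refine shp_eq_of_bil hg hx fun Y Z => ?_
    have := bil_of (((bil (g x)).flip).flip.comp A).flip Z Y
    simpa using this.symm
  conv_lhs => rw [← h1]
  rw [← traceK_eq hg hx]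
  rfl

/-- the Laplacian is the trace of the Hessian matrix. -/
lemma shp_hessM (hg : IsRiemannianOn g U) (hx : x ∈ U) {f : E n → ℝ} (hf : ContDiffAt ℝ 2 f x) :
    shp g (hessM g f) x = hessE g f x :=
  shp_eq_of_bil hg hx fun Y Z => by
    rw [bil_hessE hg hx hf, bil_hessM, hess_symm hg hx hf]

lemma lap_eq_traceK (hg : IsRiemannianOn g U) (hx : x ∈ U) {f : E n → ℝ}
    (hf : ContDiffAt ℝ 2 f x) : laplaceBeltrami g f x = traceK g (hessM g f) x := by
  rw [traceK_eq hg hx, shp_hessM hg hx hf, lap_eq_trL hg hx hf]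

lemma gDiv_eq_divg (g : MetricField n) (V : VectorField n) (x : E n) :
    gDiv g V x = divg g (fun y => WithLp.toLp 2 (V y)) x := by
  rw [gDiv, divg, one_div, div_eq_inv_mul]; rfl

lemma gradDot_eq_gam (g : MetricField n) (u v : E n → ℝ) (x : E n) :
    gradDot g u v x = gam g u v x := rfl

lemma gradSq_eq_gam (g : MetricField n) (u : E n → ℝ) (x : E n) :
    gradSq g u x = gam g u u x := rfl

/-! ### smoothness -/

lemma contDiffAt_mat {k : WithTop ℕ∞} {M : MetricField n}
    (h : ∀ i j, ContDiffAt ℝ k (fun y => M y i j) x) : ContDiffAt ℝ k (fun y => mat (M y)) x :=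
  ContDiffAt.sum fun i _ => ContDiffAt.sum fun j _ => (h i j).smul contDiffAt_const

lemma contDiffAt_sum2 {ι κ F H : Type*} [Fintype ι] [Fintype κ]
    [NormedAddCommGroup H] [NormedSpace ℝ H] [NormedAddCommGroup F] [NormedSpace ℝ F]
    {k : WithTop ℕ∞} {f : ι → κ → H → ℝ} {x : H} (hf : ∀ i j, ContDiffAt ℝ k (f i j) x)
    (L : ι → κ → F) : ContDiffAt ℝ k (fun y => ∑ i, ∑ j, f i j y • L i j) x :=
  ContDiffAt.sum fun i _ => ContDiffAt.sum fun j _ => (hf i j).smul contDiffAt_const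

lemma contDiffAt_bil {k : WithTop ℕ∞} {M : MetricField n}
    (h : ∀ i j, ContDiffAt ℝ k (fun y => M y i j) x) : ContDiffAt ℝ k (fun y => bil (M y)) x :=
  contDiffAt_sum2 (F := E n →L[ℝ] E n →L[ℝ] ℝ) h _

lemma contDiffAt_bil_apply {k : WithTop ℕ∞} {M : MetricField n} {Y Z : E n → E n}
    (h : ∀ i j, ContDiffAt ℝ k (fun y => M y i j) x) (hY : ContDiffAt ℝ k Y x)
    (hZ : ContDiffAt ℝ k Z x) : ContDiffAt ℝ k (fun y => bil (M y) (Y y) (Z y)) x :=
  ((contDiffAt_bil h).clm_apply hY).clm_apply hZ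

lemma contDiffAt_shp (hg : IsRiemannianOn g U) (hx : x ∈ U) {k : WithTop ℕ∞} (hk : k ≤ ∞)
    (h : ∀ i j, ContDiffAt ℝ k (fun y => T y i j) x) : ContDiffAt ℝ k (shp g T) x := by
  refine contDiffAt_mat (M := fun y => (g y)⁻¹ * T y) fun i j => ?_
  simp only [Matrix.mul_apply]
  exact ContDiffAt.sum fun l _ => ((contDiffAt_inv hg hx i l).of_le hk).mul (h l j)

lemma contDiffAt_tv (hg : IsRiemannianOn g U) (hx : x ∈ U) {k : WithTop ℕ∞} (hk : k ≤ ∞)
    (h : ∀ i j, ContDiffAt ℝ k (fun y => T y i j) x) {W : E n → E n} (hW : ContDiffAt ℝ k W x) :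
    ContDiffAt ℝ k (tv g T W) x :=
  (contDiffAt_shp hg hx hk h).clm_apply hW

lemma contDiffAt_traceK (hg : IsRiemannianOn g U) (hx : x ∈ U) {k : WithTop ℕ∞} (hk : k ≤ ∞)
    (h : ∀ i j, ContDiffAt ℝ k (fun y => T y i j) x) : ContDiffAt ℝ k (traceK g T) x :=
  ContDiffAt.sum fun i _ => ContDiffAt.sum fun j _ =>
    ((contDiffAt_inv hg hx i j).of_le hk).mul (h i j)

lemma contDiffAt_hessM (hg : IsRiemannianOn g U) (hx : x ∈ U) {f : E n → ℝ}
    (hf : ContDiffAt ℝ ∞ f x) (i j : Fin n) : ContDiffAt ℝ ∞ (fun y => hessM g f y i j) x := by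
  have h1 : ContDiffAt ℝ ∞ (fderiv ℝ f) x := hf.fderiv_right (by simp)
  have h2 : ContDiffAt ℝ ∞ (fderiv ℝ (fderiv ℝ f)) x := h1.fderiv_right (by simp)
  simp only [hessM, Matrix.of_apply, hess_apply]
  exact ((h2.clm_apply contDiffAt_const).clm_apply contDiffAt_const).sub
    (h1.clm_apply (((contDiffAt_Gam hg hx).clm_apply contDiffAt_const).clm_apply contDiffAt_const))

lemma SymT.contDiffAt {K : MetricField n} (hK : SymT K U) (hU : IsOpen U) (hx : x ∈ U)
    (i j : Fin n) : ContDiffAt ℝ ∞ (fun y => K y i j) x :=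
  (hK.smooth i j).contDiffAt (hU.mem_nhds hx)

lemma SymT.bil_symm {K : MetricField n} (hK : SymT K U) (hx : x ∈ U) (Y Z : E n) :
    bil (K x) Y Z = bil (K x) Z Y := bil_symm_of (hK.symm x hx) Y Z

end Riem

end Crest.Agent.N346.Id

end
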