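import Crest.Agent.N346.Id.Ric

/-!
Row 346, Part 1 (helper90): comparison of two Riemannian metrics `g`, `g₂` on the same open set.
`C = Γ(g₂) - Γ(g)`, `l` is a function with `dl = tr C` (for example `log (√det g₂ / √det g)`).
Main results: `divg_two`, `hess_two`, `ricci_two` (Palatini), `scalar_two` (identity I1).
-/

set_option autoImplicit false

open scoped ContDiff Topology
open Filter Set
open Crest.GeometryTopology.CoordMetric Crest.MathPhysics.ExteriorData
open Crest.Agent.R202.Tens Crest.Agent.R247.Bo84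

noncomputable section

namespace Crest.Agent.N346.Id

variable {n : ℕ} {g g₂ : MetricField n} {U : Set (E n)} {x : E n} {W Y : E n → E n}

/-- difference of the Levi-Civita connections, `C = Γ(g₂) - Γ(g)`. -/
def Cd (g g₂ : MetricField n) (x : E n) : E n →L[ℝ] E n →L[ℝ] E n := Gam g₂ x - Gam g x

/-- `log √det g`. -/
def lvol (g : MetricField n) (x : E n) : ℝ := Real.log (volDensity g x)

/-- the gradient of the `i`-th coordinate function, `ξᵢ = G^{ij} eⱼ`. -/
def xi (G : MetricField n) (i : Fin n) : E n → E n := grad G fun z => z i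

lemma Cd_apply (g g₂ : MetricField n) (x A B : E n) :
    Cd g g₂ x A B = Gam g₂ x A B - Gam g x A B := rfl

lemma Cd_symm (hg : IsRiemannianOn g U) (hg₂ : IsRiemannianOn g₂ U) (hx : x ∈ U) (A B : E n) :
    Cd g g₂ x A B = Cd g g₂ x B A := by
  rw [Cd_apply, Cd_apply, Gam_symm hg hx, Gam_symm hg₂ hx]

lemma contDiffAt_Cd (hg : IsRiemannianOn g U) (hg₂ : IsRiemannianOn g₂ U) (hx : x ∈ U) :
    ContDiffAt ℝ ∞ (Cd g g₂) x := (contDiffAt_Gam hg₂ hx).sub (contDiffAt_Gam hg hx)

lemma volDensity_pos (hg : IsRiemannianOn g U) (hx : x ∈ U) : 0 < volDensity g x :=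
  Real.sqrt_pos.2 (det_pos hg hx)

lemma contDiffAt_volDensity (hg : IsRiemannianOn g U) (hx : x ∈ U) :
    ContDiffAt ℝ ∞ (volDensity g) x := contDiffAt_sqrt_det hg hx

lemma contDiffAt_lvol (hg : IsRiemannianOn g U) (hx : x ∈ U) : ContDiffAt ℝ ∞ (lvol g) x :=
  (contDiffAt_volDensity hg hx).log (volDensity_pos hg hx).ne'

lemma pderiv_lvol (hg : IsRiemannianOn g U) (hx : x ∈ U) (i : Fin n) :
    pderiv i (lvol g) x = ∑ k, christoffel g x k k i := by
  have hd : DifferentiableAt ℝ (volDensity g) x :=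
    (contDiffAt_volDensity hg hx).differentiableAt (by simp)
  have hp := volDensity_pos hg hx
  have h1 : fderiv ℝ (lvol g) x = (volDensity g x)⁻¹ • fderiv ℝ (volDensity g) x :=
    (hd.hasFDerivAt.log hp.ne').fderiv
  have h2 : pderiv i (volDensity g) x = volDensity g x * ∑ k, christoffel g x k k i :=
    pderiv_sqrt_det hg hx i
  rw [pderiv, h1, smul_apply, smul_eq_mul]
  rw [pderiv] at h2
  rw [h2]
  field_simp

lemma trL_Gam (hg : IsRiemannianOn g U) (hx : x ∈ U) (Z : E n) :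
    trL (Gam g x Z) = fderiv ℝ (lvol g) x Z := by
  rw [trL_apply, fderiv_eq_sum]
  simp only [pderiv_lvol hg hx, Finset.mul_sum]
  rw [Finset.sum_comm]
  refine Finset.sum_congr rfl fun k _ => ?_
  rw [Gam_symm hg hx, Gam_apply, Finset.sum_eq_single k]
  · exact Finset.sum_congr rfl fun j _ => by simp [mul_comm]
  · intro b _ hb
    simp [hb]
  · simp

lemma trL_Cd (hg : IsRiemannianOn g U) (hg₂ : IsRiemannianOn g₂ U) (hx : x ∈ U) (Z : E n) :
    trL (Cd g g₂ x Z) = fderiv ℝ (fun y => lvol g₂ y - lvol g y) x Z := by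
  rw [fderiv_fun_sub ((contDiffAt_lvol hg₂ hx).differentiableAt (by simp))
    ((contDiffAt_lvol hg hx).differentiableAt (by simp)), sub_apply, ← trL_Gam hg hx,
    ← trL_Gam hg₂ hx, ← map_sub]
  rfl

/-- the Ricci tensor is symmetric. -/
lemma ricci_symm (hg : IsRiemannianOn g U) (hx : x ∈ U) (i j : Fin n) :
    ricci g x i j = ricci g x j i := by
  have hl := contDiffAt_lvol hg hx
  have h1 : ∀ i j : Fin n, pderiv j (fun y => ∑ k, christoffel g y k k i) x =
      fderiv ℝ (fderiv ℝ (lvol g)) x (ee j) (ee i) := by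
    intro i j
    have h2 : (fun y => ∑ k, christoffel g y k k i) =ᶠ[𝓝 x]
        fun y => fderiv ℝ (lvol g) y (ee i) := by
      filter_upwards [hg.isOpen.mem_nhds hx] with y hy using (pderiv_lvol hg hy i).symm
    have hdf : DifferentiableAt ℝ (fderiv ℝ (lvol g)) x :=
      (hl.fderiv_right (m := 1) (by norm_cast)).differentiableAt (by norm_num)
    rw [pderiv, h2.fderiv_eq, fderiv_clm_apply hdf (differentiableAt_const _)]
    simp
  unfold ricci
  rw [h1, h1, fderiv2_symm (hl.of_le (by norm_cast)) (ee j) (ee i)]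
  have h2 : ∀ k, pderiv k (fun y => christoffel g y k j i) x
      = pderiv k (fun y => christoffel g y k i j) x := fun k =>
    pderiv_christoffel_symm hg hx k k j i
  have h3 : ∀ a, christoffel g x a j i = christoffel g x a i j := fun a =>
    christoffel_symm hg hx a j i
  have h4 : ∑ k, ∑ l, christoffel g x k j l * christoffel g x l k i =
      ∑ k, ∑ l, christoffel g x k i l * christoffel g x l k j := by
    rw [Finset.sum_comm]
    refine Finset.sum_congr rfl fun k _ => Finset.sum_congr rfl fun l _ => ?_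
    rw [christoffel_symm hg hx l j k, christoffel_symm hg hx k l i, mul_comm]
  simp only [h2, h3, h4]

lemma ricM_symm (hg : IsRiemannianOn g U) (hx : x ∈ U) (A B : E n) :
    bil (ricM g x) A B = bil (ricM g x) B A :=
  bil_symm_of (fun i j => ricci_symm hg hx i j) A B

lemma cov_two (hg : IsRiemannianOn g U) (hg₂ : IsRiemannianOn g₂ U) (hx : x ∈ U)
    (Y : E n → E n) : cov g₂ Y x = cov g Y x + Cd g g₂ x (Y x) := by
  ext1 X
  rw [add_apply, Cd_symm hg hg₂ hx, cov_apply, cov_apply, Cd_apply]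
  abel

lemma hess_two (g g₂ : MetricField n) (ψ : E n → ℝ) (x A B : E n) :
    hess g₂ ψ x A B = hess g ψ x A B - fderiv ℝ ψ x (Cd g g₂ x A B) := by
  rw [hess_apply, hess_apply, Cd_apply, map_sub]
  ring

lemma divg_two (hg : IsRiemannianOn g U) (hg₂ : IsRiemannianOn g₂ U) (hx : x ∈ U)
    {l : E n → ℝ} (hl : ∀ Z, trL (Cd g g₂ x Z) = fderiv ℝ l x Z)
    (hY : DifferentiableAt ℝ Y x) : divg g₂ Y x = divg g Y x + fderiv ℝ l x (Y x) := by
  rw [divg_eq_trL hg₂ hx hY, divg_eq_trL hg hx hY, cov_two hg hg₂ hx, map_add, hl]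

/-- **Palatini**: difference of the Ricci tensors along vector fields. -/
theorem ricci_two (hg : IsRiemannianOn g U) (hg₂ : IsRiemannianOn g₂ U) (hx : x ∈ U)
    {l : E n → ℝ} (hl2 : ContDiffAt ℝ 2 l x)
    (hl : ∀ y ∈ U, ∀ Z, trL (Cd g g₂ y Z) = fderiv ℝ l y Z)
    (hW : ContDiffAt ℝ 2 W x) (hY : DifferentiableAt ℝ Y x) :
    bil (ricM g₂ x) (W x) (Y x) = bil (ricM g x) (W x) (Y x)
      + divg g (fun y => Cd g g₂ y (W y) (Y y)) x + fderiv ℝ l x (Cd g g₂ x (W x) (Y x))
      - hess g l x (Y x) (W x) - trL ((cov g W x).comp (Cd g g₂ x (Y x)))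
      - trL ((Cd g g₂ x (W x)).comp (cov g Y x))
      - trL ((Cd g g₂ x (W x)).comp (Cd g g₂ x (Y x))) := by
  have hWd : DifferentiableAt ℝ W x := hW.differentiableAt (by norm_num)
  have hC : DifferentiableAt ℝ (Cd g g₂) x := (contDiffAt_Cd hg hg₂ hx).differentiableAt (by simp)
  have hcov : ∀ {G : MetricField n}, IsRiemannianOn G U →
      DifferentiableAt ℝ (fun y => cov G W y (Y y)) x := fun hG =>
    ((contDiffAt_cov hG hx (m := 1) hW (by norm_num) (by simp)).differentiableAt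
      (by norm_num)).clm_apply hY
  have hCWY : DifferentiableAt ℝ (fun y => Cd g g₂ y (W y) (Y y)) x :=
    (hC.clm_apply hWd).clm_apply hY
  have h1 := divg_cov hg hx hW hY
  have h2 := divg_cov hg₂ hx hW hY
  have e1 : (fun y => cov g₂ W y (Y y)) =ᶠ[𝓝 x]
      fun y => cov g W y (Y y) + Cd g g₂ y (W y) (Y y) := by
    filter_upwards [hg.isOpen.mem_nhds hx] with y hy
    rw [cov_two hg hg₂ hy, add_apply]
  rw [divg_two hg hg₂ hx (hl x hx) (hcov hg₂), divg_congr e1,
    divg_add hg hx (hcov hg) hCWY] at h2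
  have e2 : divg g₂ W =ᶠ[𝓝 x] fun y => divg g W y + fderiv ℝ l y (W y) := by
    filter_upwards [hg.isOpen.mem_nhds hx, hW.eventually (by norm_num)] with y hy h3
      using divg_two hg hg₂ hy (hl y hy) (h3.differentiableAt (by norm_num))
  have hdiv : DifferentiableAt ℝ (divg g W) x :=
    (contDiffAt_divg hg hx (m := 1) hW (by norm_num) (by norm_cast)).differentiableAt (by norm_num)
  have hdl : DifferentiableAt ℝ (fun y => fderiv ℝ l y (W y)) x :=
    ((hl2.fderiv_right (m := 1) (by norm_num)).differentiableAt (by norm_num)).clm_apply hWd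
  rw [e2.fderiv_eq, fderiv_fun_add hdiv hdl, add_apply, fderiv_fderiv_apply hl2 hWd g,
    cov_two hg hg₂ hx W, cov_two hg hg₂ hx Y] at h2
  simp only [ContinuousLinearMap.comp_add, ContinuousLinearMap.add_comp, map_add, add_apply] at h2
  linarith

/-- the same, with the connection of `g₂` on the right-hand side. -/
theorem ricci_two' (hg : IsRiemannianOn g U) (hg₂ : IsRiemannianOn g₂ U) (hx : x ∈ U)
    {l : E n → ℝ} (hl2 : ContDiffAt ℝ 2 l x)
    (hl : ∀ y ∈ U, ∀ Z, trL (Cd g g₂ y Z) = fderiv ℝ l y Z)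
    (hW : ContDiffAt ℝ 2 W x) (hY : DifferentiableAt ℝ Y x) :
    bil (ricM g₂ x) (W x) (Y x) = bil (ricM g x) (W x) (Y x)
      + divg g₂ (fun y => Cd g g₂ y (W y) (Y y)) x - fderiv ℝ l x (Cd g g₂ x (W x) (Y x))
      - hess g₂ l x (Y x) (W x) - trL ((cov g₂ W x).comp (Cd g g₂ x (Y x)))
      - trL ((Cd g g₂ x (W x)).comp (cov g₂ Y x))
      + trL ((Cd g g₂ x (W x)).comp (Cd g g₂ x (Y x))) := by
  have hWd : DifferentiableAt ℝ W x := hW.differentiableAt (by norm_num)
  have hC : DifferentiableAt ℝ (Cd g g₂) x := (contDiffAt_Cd hg hg₂ hx).differentiableAt (by simp)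
  have hCWY : DifferentiableAt ℝ (fun y => Cd g g₂ y (W y) (Y y)) x :=
    (hC.clm_apply hWd).clm_apply hY
  rw [ricci_two hg hg₂ hx hl2 hl hW hY, divg_two hg hg₂ hx (hl x hx) hCWY, hess_two g g₂,
    cov_two hg hg₂ hx W, cov_two hg hg₂ hx Y, Cd_symm hg hg₂ hx (Y x) (W x)]
  simp only [ContinuousLinearMap.comp_add, ContinuousLinearMap.add_comp, map_add]
  ring

/-! ### the dual coordinate frame -/

lemma fderiv_coord (i : Fin n) (x : E n) :
    fderiv ℝ (fun z : E n => z i) x = (EuclideanSpace.proj i : E n →L[ℝ] ℝ) :=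
  (EuclideanSpace.proj i : E n →L[ℝ] ℝ).fderiv

lemma contDiff_coord (i : Fin n) {k : WithTop ℕ∞} : ContDiff ℝ k (fun z : E n => z i) :=
  (EuclideanSpace.proj i : E n →L[ℝ] ℝ).contDiff

lemma bil_xi (hg : IsRiemannianOn g U) (hx : x ∈ U) (i : Fin n) (Z : E n) :
    bil (g x) (xi g i x) Z = Z i := by
  rw [xi, bil_grad hg hx, fderiv_coord]; rfl

lemma xi_apply (g : MetricField n) (i j : Fin n) (x : E n) :
    xi g i x j = inverseField g x j i := by
  rw [xi, grad_apply, Finset.sum_eq_single i]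
  · simp [pderiv, fderiv_coord]
  · intro b _ hb
    simp [pderiv, fderiv_coord, hb.symm]
  · simp

lemma contDiffAt_xi (hg : IsRiemannianOn g U) (hx : x ∈ U) (i : Fin n) :
    ContDiffAt ℝ ∞ (xi g i) x :=
  contDiffAt_grad hg hx (k := ∞) (contDiff_coord i).contDiffAt (by simp) le_rfl

lemma sum_xi (hg : IsRiemannianOn g U) (hx : x ∈ U) (A : E n) :
    ∑ i, bil (g x) A (ee i) • xi g i x = A := by
  refine bil_injective hg hx fun Z => ?_
  rw [map_sum, sum_apply, clm_eq_sum (bil (g x) A) Z]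
  refine Finset.sum_congr rfl fun i _ => ?_
  rw [map_smul, smul_apply, bil_xi hg hx, smul_eq_mul, mul_comm]

/-- contraction of two covectors by `g⁻¹`, the first one given by a vector. -/
lemma sum_xi_clm (hg : IsRiemannianOn g U) (hx : x ∈ U) (A : E n) (β : E n →L[ℝ] ℝ) :
    ∑ i, bil (g x) A (ee i) * β (xi g i x) = β A := by
  conv_rhs => rw [← sum_xi hg hx A]
  simp only [map_sum, map_smul, smul_eq_mul]

lemma traceK_eq_sum_xi (hg : IsRiemannianOn g U) (hx : x ∈ U) (T : MetricField n) :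
    traceK g T x = ∑ i, bil (T x) (ee i) (xi g i x) := by
  refine Finset.sum_congr rfl fun i _ => ?_
  rw [clm_eq_sum (bil (T x) (ee i))]
  refine Finset.sum_congr rfl fun j _ => ?_
  rw [bil_ee, xi_apply, inv_symm hg hx]

lemma cov_xi (hg : IsRiemannianOn g U) (hx : x ∈ U) (i : Fin n) (X : E n) :
    cov g (xi g i) x X = -∑ j, Gam g x X (ee j) i • xi g j x := by
  rw [← sum_xi hg hx (cov g (xi g i) x X), ← Finset.sum_neg_distrib]
  refine Finset.sum_congr rfl fun j _ => ?_
  rw [← neg_smul]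
  congr 1
  have h1 := bil_hessE hg hx (f := fun z : E n => z i) (contDiff_coord i).contDiffAt X (ee j)
  have h2 : fderiv ℝ (fun z : E n => z i) = fun _ => (EuclideanSpace.proj i : E n →L[ℝ] ℝ) := by
    ext1 y; exact fderiv_coord i y
  rw [hess_apply, h2] at h1
  change bil (g x) (hessE g (fun z : E n => z i) x X) (ee j) = _
  simpa using h1

/-- **Identity I1**: the scalar curvature of `g₂` in terms of `g` and `C`. -/
theorem scalar_two (hg : IsRiemannianOn g U) (hg₂ : IsRiemannianOn g₂ U) (hx : x ∈ U)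
    {l : E n → ℝ} (hl2 : ContDiffAt ℝ 2 l x)
    (hl : ∀ y ∈ U, ∀ Z, trL (Cd g g₂ y Z) = fderiv ℝ l y Z) :
    scalarCurv g₂ x = traceK g₂ (ricM g) x
      + divg g₂ (fun y => ∑ i, Cd g g₂ y (ee i) (xi g₂ i y)) x
      - fderiv ℝ l x (∑ i, Cd g g₂ x (ee i) (xi g₂ i x)) - laplaceBeltrami g₂ l x
      + ∑ i, trL ((Cd g g₂ x (ee i)).comp (Cd g g₂ x (xi g₂ i x))) := by
  have hξ : ∀ i, DifferentiableAt ℝ (xi g₂ i) x := fun i =>
    (contDiffAt_xi hg₂ hx i).differentiableAt (by simp)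
  have hC : DifferentiableAt ℝ (Cd g g₂) x := (contDiffAt_Cd hg hg₂ hx).differentiableAt (by simp)
  have h1 := fun i => ricci_two' hg hg₂ hx hl2 hl (W := fun _ => ee i) (Y := xi g₂ i)
    contDiffAt_const (hξ i)
  have key : ∑ i, (trL ((cov g₂ (fun _ => ee i) x).comp (Cd g g₂ x (xi g₂ i x)))
      + trL ((Cd g g₂ x (ee i)).comp (cov g₂ (xi g₂ i) x))) = 0 := by
    have e1 : ∀ i, trL ((cov g₂ (fun _ => ee i) x).comp (Cd g g₂ x (xi g₂ i x))) =
        ∑ k, Cd g g₂ x (Gam g₂ x (ee k) (ee i)) (xi g₂ i x) k := by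
      intro i
      rw [trL_comp_comm, trL_apply]
      refine Finset.sum_congr rfl fun k _ => ?_
      rw [ContinuousLinearMap.comp_apply, cov_const, Cd_symm hg hg₂ hx]
    have e2 : ∀ i, trL ((Cd g g₂ x (ee i)).comp (cov g₂ (xi g₂ i) x)) =
        -∑ k, ∑ j, Gam g₂ x (ee k) (ee j) i * Cd g g₂ x (ee i) (xi g₂ j x) k := by
      intro i
      rw [trL_apply, ← Finset.sum_neg_distrib]
      refine Finset.sum_congr rfl fun k _ => ?_
      rw [ContinuousLinearMap.comp_apply, cov_xi hg₂ hx, map_neg, map_sum, PiLp.neg_apply,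
        WithLp.ofLp_sum, Finset.sum_apply]
      simp only [map_smul, PiLp.smul_apply, smul_eq_mul]
    have e3 : ∀ k j, Cd g g₂ x (Gam g₂ x (ee k) (ee j)) (xi g₂ j x) k =
        ∑ i, Gam g₂ x (ee k) (ee j) i * Cd g g₂ x (ee i) (xi g₂ j x) k := by
      intro k j
      conv_lhs => rw [eq_sum_single (Gam g₂ x (ee k) (ee j))]
      rw [map_sum, sum_apply, WithLp.ofLp_sum, Finset.sum_apply]
      simp only [map_smul, smul_apply, PiLp.smul_apply, smul_eq_mul]
    simp only [e1, e2, e3]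
    rw [Finset.sum_add_distrib, Finset.sum_neg_distrib, add_neg_eq_zero]
    -- ∑ j k i = ∑ i k j
    rw [Finset.sum_comm]
    conv_rhs => rw [Finset.sum_comm]
    refine Finset.sum_congr rfl fun k _ => ?_
    rw [Finset.sum_comm]
  rw [scalarCurv_eq_traceK, traceK_eq_sum_xi hg₂ hx, traceK_eq_sum_xi hg₂ hx,
    lap_eq_traceK hg₂ hx hl2, traceK_eq_sum_xi hg₂ hx,
    divg_sum _ hg₂ hx (F := fun i y => Cd g g₂ y (ee i) (xi g₂ i y))
      (fun i => (hC.clm_apply (differentiableAt_const _)).clm_apply (hξ i)), map_sum]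
  simp only [h1, bil_hessM, hess_symm hg₂ hx hl2 (ee _)]
  rw [Finset.sum_add_distrib] at key
  simp only [Finset.sum_add_distrib, Finset.sum_sub_distrib]
  linarith

end Crest.Agent.N346.Id

end
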