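import Crest.Agent.N346.Id.Lin

/-!
Row 346, Part 1 (helper90): covariant derivative rules, the Ricci identity in divergence form,
and the divergence of `K(W, ·)^♯`.
-/

set_option autoImplicit false

open scoped ContDiff Topology
open Filter Set
open Crest.GeometryTopology.CoordMetric Crest.MathPhysics.ExteriorData
open Crest.Agent.R202.Tens Crest.Agent.R247.Bo84

noncomputable section

namespace Crest.Agent.N346.Id

variable {n : ℕ} {g : MetricField n} {U : Set (E n)} {x : E n} {V W Y Z : E n → E n}

lemma cov_congr (h : V =ᶠ[𝓝 x] W) : cov g V x = cov g W x := by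
  rw [cov, cov, h.fderiv_eq, h.self_of_nhds]

lemma cov_add (hV : DifferentiableAt ℝ V x) (hW : DifferentiableAt ℝ W x) :
    cov g (fun y => V y + W y) x = cov g V x + cov g W x := by
  ext1 X
  rw [cov_apply, fderiv_fun_add hV hW]
  simp only [add_apply, cov_apply, map_add]
  abel

lemma cov_sub (hV : DifferentiableAt ℝ V x) (hW : DifferentiableAt ℝ W x) :
    cov g (fun y => V y - W y) x = cov g V x - cov g W x := by
  ext1 X
  rw [cov_apply, fderiv_fun_sub hV hW]
  simp only [sub_apply, cov_apply, map_sub]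
  abel

lemma cov_smul {h : E n → ℝ} (hh : DifferentiableAt ℝ h x) (hV : DifferentiableAt ℝ V x) :
    cov g (fun y => h y • V y) x = h x • cov g V x + (fderiv ℝ h x).smulRight (V x) := by
  ext1 X
  rw [cov_apply, fderiv_fun_smul hh hV]
  simp only [add_apply, smul_apply, ContinuousLinearMap.smulRight_apply, cov_apply, map_smul,
    smul_add]
  abel

lemma cov_const (v : E n) (X : E n) : cov g (fun _ => v) x X = Gam g x X v := by
  rw [cov_apply]
  simp

lemma divg_sub (hg : IsRiemannianOn g U) (hx : x ∈ U)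
    (hV : DifferentiableAt ℝ V x) (hW : DifferentiableAt ℝ W x) :
    divg g (fun y => V y - W y) x = divg g V x - divg g W x := by
  rw [divg_eq_trL hg hx (hV.fun_sub hW), divg_eq_trL hg hx hV, divg_eq_trL hg hx hW, ← map_sub,
    cov_sub hV hW]

lemma divg_sum {ι : Type*} (s : Finset ι) (hg : IsRiemannianOn g U) (hx : x ∈ U)
    {F : ι → E n → E n} (hF : ∀ i, DifferentiableAt ℝ (F i) x) :
    divg g (fun y => ∑ i ∈ s, F i y) x = ∑ i ∈ s, divg g (F i) x := by
  classical
  induction s using Finset.induction_on with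
  | empty => simp [divg, pderiv]
  | insert a s ha ih =>
    simp only [Finset.sum_insert ha]
    rw [divg_add hg hx (hF a) (DifferentiableAt.fun_sum fun i _ => hF i), ih]

/-- `X(df(Z)) = Hess f(X, Z) + df(∇_X Z)`. -/
lemma fderiv_fderiv_apply {f : E n → ℝ} (hf : ContDiffAt ℝ 2 f x) (hZ : DifferentiableAt ℝ Z x)
    (g : MetricField n) (X : E n) :
    fderiv ℝ (fun y => fderiv ℝ f y (Z y)) x X =
      hess g f x X (Z x) + fderiv ℝ f x (cov g Z x X) := by
  have hdf : DifferentiableAt ℝ (fderiv ℝ f) x :=
    (hf.fderiv_right (m := 1) (by norm_num)).differentiableAt (by norm_num)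
  rw [fderiv_clm_apply hdf hZ, hess_apply, cov_apply, map_add]
  simp only [add_apply, ContinuousLinearMap.comp_apply, ContinuousLinearMap.flip_apply]
  ring

/-- **Ricci identity in divergence form**:
`div (∇_Y W) = tr (∇W ∘ ∇Y) + Y (div W) + Ric (W, Y)`. -/
theorem divg_cov (hg : IsRiemannianOn g U) (hx : x ∈ U) (hW : ContDiffAt ℝ 2 W x)
    (hY : DifferentiableAt ℝ Y x) :
    divg g (fun y => cov g W y (Y y)) x =
      trL ((cov g W x).comp (cov g Y x)) + fderiv ℝ (divg g W) x (Y x) +
        bil (ricM g x) (W x) (Y x) := by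
  have hH1 : ContDiffAt ℝ 1 (cov g W) x :=
    contDiffAt_cov hg hx (m := 1) hW (by norm_num) (by simp)
  have hHd : DifferentiableAt ℝ (cov g W) x := hH1.differentiableAt (by norm_num)
  have hdW : DifferentiableAt ℝ (fun y => cov g W y (Y y)) x := hHd.clm_apply hY
  set v := Y x with hv
  set T := cov g W x with hT
  set S := cov g Y x with hS
  have hcovW : ∀ X, cov g (fun y => cov g W y (Y y)) x X =
      fderiv ℝ (cov g W) x X v + T (fderiv ℝ Y x X) + Gam g x X (T v) := by
    intro X
    rw [cov_apply, fderiv_clm_apply hHd hY]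
    simp only [add_apply, ContinuousLinearMap.comp_apply, ContinuousLinearMap.flip_apply]
    abel
  have hric : ∀ X, fderiv ℝ (cov g W) x X v + T (fderiv ℝ Y x X) + Gam g x X (T v) =
      curv (Gam g) x X v (W x) + (T.comp S) X + fderiv ℝ (cov g W) x v X +
        ((Gam g x v).comp T) X - (T.comp (Gam g x v)) X := by
    intro X
    have h1 := ricci_identity hg hx hW X v
    rw [← h1]
    have h2 : S X = fderiv ℝ Y x X + Gam g x X v := rfl
    simp only [ContinuousLinearMap.comp_apply]
    have h3 : T (S X) = T (fderiv ℝ Y x X) + T (Gam g x X v) := by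
      rw [h2, map_add]
    rw [h3]
    abel
  have hdiv : divg g W =ᶠ[𝓝 x] fun y => trL (cov g W y) := by
    filter_upwards [hg.isOpen.mem_nhds hx, hW.eventually (by norm_num)] with y hy h2
      using divg_eq_trL hg hy (h2.differentiableAt (by norm_num))
  have hfl : fderiv ℝ (divg g W) x v = trL (fderiv ℝ (cov g W) x v) := by
    rw [hdiv.fderiv_eq]
    have h4 := (trL (n := n)).hasFDerivAt.comp x hHd.hasFDerivAt
    have h5 : fderiv ℝ (fun y => trL (cov g W y)) x =
        (trL (n := n)).comp (fderiv ℝ (cov g W) x) := h4.fderiv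
    rw [h5]
    rfl
  rw [divg_eq_trL hg hx hdW, trL_apply]
  simp only [hcovW, hric]
  rw [hfl, bil_ricM, ricci_form hg hx v (W x)]
  have h6 : trL ((Gam g x v).comp T) = trL (T.comp (Gam g x v)) := trL_comp_comm _ _
  rw [trL_apply, trL_apply] at h6
  rw [trL_apply, trL_apply]
  simp only [PiLp.add_apply, PiLp.sub_apply]
  rw [Finset.sum_sub_distrib, Finset.sum_add_distrib, Finset.sum_add_distrib,
    Finset.sum_add_distrib, h6]
  ring

/-- the covariant derivative of a two-tensor, evaluated on vectors. -/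
lemma covK_apply {K : MetricField n} (hK : ∀ i j, DifferentiableAt ℝ (fun y => K y i j) x)
    (k j : Fin n) (w : E n) :
    fderiv ℝ (Gf K) x (ee k) w (ee j) - bil (K x) (Gam g x (ee k) w) (ee j)
      - bil (K x) w (Gam g x (ee k) (ee j)) = ∑ i, covDerivK g K x k i j * w i := by
  have e1 : fderiv ℝ (Gf K) x (ee k) w (ee j) = ∑ i, pderiv k (fun y => K y i j) x * w i := by
    rw [fderiv_Gf hK, Finset.sum_eq_single k]
    · refine Finset.sum_congr rfl fun i _ => ?_
      rw [Finset.sum_eq_single j]
      · simp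
      · intro b _ hb
        simp [hb]
      · simp
    · intro b _ hb
      simp [hb]
    · simp
  have hG : ∀ (w : E n) (l : Fin n), Gam g x (ee k) w l = ∑ i, christoffel g x l k i * w i := by
    intro w l
    rw [Gam_apply, Finset.sum_eq_single k]
    · simp
    · intro b _ hb
      simp [hb]
    · simp
  have e2 : bil (K x) (Gam g x (ee k) w) (ee j) =
      ∑ i, (∑ l, christoffel g x l k i * K x l j) * w i := by
    rw [bil_eq_mat]
    simp only [mat_ee, hG, Finset.sum_mul]
    rw [Finset.sum_comm]
    exact Finset.sum_congr rfl fun i _ => Finset.sum_congr rfl fun l _ => by ring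
  have e3 : bil (K x) w (Gam g x (ee k) (ee j)) =
      ∑ i, (∑ l, christoffel g x l k j * K x i l) * w i := by
    rw [bil_eq_mat]
    refine Finset.sum_congr rfl fun i _ => ?_
    rw [mat_apply, mul_comm]
    congr 1
    refine Finset.sum_congr rfl fun l _ => ?_
    rw [hG, Finset.sum_eq_single j]
    · simp [mul_comm]
    · intro b _ hb
      simp [hb]
    · simp
  rw [e1, e2, e3, ← Finset.sum_sub_distrib, ← Finset.sum_sub_distrib]
  refine Finset.sum_congr rfl fun i _ => ?_
  rw [covDerivK]
  ring

/-- `div (K(W, ·)^♯) = J(W) + W(tr K) + tr (K^♯ ∘ ∇W)`. -/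
theorem divg_tv (hg : IsRiemannianOn g U) (hx : x ∈ U) {K : MetricField n} (hK : SymT K U)
    (hW : DifferentiableAt ℝ W x) :
    divg g (tv g K W) x = Jw g K x (W x) + fderiv ℝ (traceK g K) x (W x) +
      trL ((shp g K x).comp (cov g W x)) := by
  have hKc := hK.contDiffAt hg.isOpen hx
  have hKd : ∀ i j, DifferentiableAt ℝ (fun y => K y i j) x := fun i j =>
    (hKc i j).differentiableAt (by simp)
  have htv : DifferentiableAt ℝ (tv g K W) x :=
    ((contDiffAt_shp hg hx le_rfl hKc).differentiableAt (by simp)).clm_apply hW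
  have hGK : DifferentiableAt ℝ (Gf K) x := (hasFDerivAt_Gf hKd).differentiableAt
  have key : ∀ k j, bil (g x) (cov g (tv g K W) x (ee k)) (ee j) =
      ∑ i, covDerivK g K x k i j * W x i +
        bil (g x) (((shp g K x).comp (cov g W x)) (ee k)) (ee j) := by
    intro k j
    have h1 := fderiv_bil hg hx htv (differentiableAt_const (ee j)) (ee k)
    have h2 : (fun y => bil (g y) (tv g K W y) (ee j)) =ᶠ[𝓝 x]
        fun y => Gf K y (W y) (ee j) := by
      filter_upwards [hg.isOpen.mem_nhds hx] with y hy
      rw [tv, bil_shp hg hy, hK.bil_symm hy]; rfl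
    have h3 := fderiv_apply2 (G := Gf K) (Φ := fun z => z) (u := W) (v := fun _ => ee j)
        (y := x) hGK differentiableAt_id hW (differentiableAt_const _) (ee k)
    simp only [fderiv_fun_id, ContinuousLinearMap.coe_id', id_eq, fderiv_fun_const, Pi.zero_apply,
      zero_apply, map_zero, add_zero] at h3
    rw [h2.fderiv_eq, h3, cov_const, tv, bil_shp hg hx, hK.bil_symm hx] at h1
    rw [← covK_apply hKd, ContinuousLinearMap.comp_apply, bil_shp hg hx, hK.bil_symm hx (ee j),
      cov_apply g W, map_add, add_apply]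
    have e : Gf K x (fderiv ℝ W x (ee k)) (ee j) = bil (K x) (fderiv ℝ W x (ee k)) (ee j) := rfl
    linarith
  rw [divg_eq_trL hg hx htv, trL_eq_sum_inv hg hx, trL_eq_sum_inv hg hx ((shp g K x).comp _)]
  simp only [key, mul_add, Finset.sum_add_distrib]
  congr 1
  rw [Jw, fderiv_eq_sum, ← Finset.sum_add_distrib]
  simp only [Finset.mul_sum]
  have h4 : ∀ j : Fin n, ∑ k, ∑ i, inverseField g x j k * (covDerivK g K x k i j * W x i) =
      ∑ i, ∑ k, inverseField g x j k * (covDerivK g K x k i j * W x i) :=
    fun j => Finset.sum_comm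
  simp only [h4]
  rw [Finset.sum_comm]
  refine Finset.sum_congr rfl fun i _ => ?_
  rw [momentumDensity, sub_mul, Finset.sum_mul]
  simp only [Finset.sum_mul, mul_assoc]
  ring

lemma Jw_eq (hg : IsRiemannianOn g U) (hx : x ∈ U) {K : MetricField n} (hK : SymT K U)
    (hW : DifferentiableAt ℝ W x) :
    Jw g K x (W x) = divg g (tv g K W) x - fderiv ℝ (traceK g K) x (W x) -
      trL ((shp g K x).comp (cov g W x)) := by
  rw [divg_tv hg hx hK hW]; ring

end Crest.Agent.N346.Id

end
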